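import Mathlib

set_option autoImplicit false
open MeasureTheory
open scoped ENNReal

namespace Crest.Agent.R211

/-- Euclidean plane. -/
abbrev E2 := EuclideanSpace ℝ (Fin 2)
/-- Euclidean space. -/
abbrev E3 := EuclideanSpace ℝ (Fin 3)

section General

variable {E : Type*} [NormedAddCommGroup E] [InnerProductSpace ℝ E]

/-- The linear map `(s, t) ↦ s • a + t • b`. -/
noncomputable def lin2 (a b : E) : E2 →ₗ[ℝ] E where
  toFun p := p 0 • a + p 1 • b
  map_add' p q := by
    simp only [PiLp.add_apply, add_smul]; abel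
  map_smul' c p := by
    simp only [PiLp.smul_apply, smul_eq_mul, mul_smul, smul_add, RingHom.id_apply]

@[simp] theorem lin2_apply (a b : E) (p : E2) : lin2 a b p = p 0 • a + p 1 • b := rfl

/-- Area of the parallelogram spanned by `a` and `b`. -/
noncomputable def gramArea (a b : E) : ℝ := Real.sqrt (‖a‖ ^ 2 * ‖b‖ ^ 2 - inner ℝ a b ^ 2)

theorem gramArea_nonneg (a b : E) : 0 ≤ gramArea a b := Real.sqrt_nonneg _

theorem gram_nonneg (a b : E) : 0 ≤ ‖a‖ ^ 2 * ‖b‖ ^ 2 - inner ℝ a b ^ 2 := by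
  have h := abs_real_inner_le_norm a b
  have h2 : inner ℝ a b ^ 2 ≤ (‖a‖ * ‖b‖) ^ 2 := by
    rw [← sq_abs (inner ℝ a b)]
    exact pow_le_pow_left₀ (abs_nonneg _) h 2
  nlinarith [h2]

theorem gramArea_sq (a b : E) : gramArea a b ^ 2 = ‖a‖ ^ 2 * ‖b‖ ^ 2 - inner ℝ a b ^ 2 :=
  Real.sq_sqrt (gram_nonneg a b)

theorem normDet_lin2 (a b : E) : (lin2 a b).normDet = gramArea a b := by
  have h := (lin2 a b).normDet_sq_eq_det_gram (EuclideanSpace.basisFun (Fin 2) ℝ)
  have h0 : lin2 a b (EuclideanSpace.basisFun (Fin 2) ℝ 0) = a := by simp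
  have h1 : lin2 a b (EuclideanSpace.basisFun (Fin 2) ℝ 1) = b := by simp
  rw [Matrix.det_fin_two] at h
  simp only [Matrix.gram_apply, h0, h1] at h
  have h' : (lin2 a b).normDet ^ 2 = ‖a‖ ^ 2 * ‖b‖ ^ 2 - inner ℝ a b ^ 2 := by
    have : ((lin2 a b).normDet ^ 2 : ℝ) = inner ℝ a a * inner ℝ b b - inner ℝ a b * inner ℝ b a := by
      simpa using h
    rw [this, real_inner_self_eq_norm_sq, real_inner_self_eq_norm_sq, real_inner_comm a b]
    ring
  rw [gramArea, ← h', Real.sqrt_sq (LinearMap.normDet_nonneg _)]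

variable [MeasurableSpace E] [BorelSpace E]

/-- Area of an affine image of a planar set. -/
theorem muHE_image (a b c : E) (S : Set E2) :
    μHE[2] ((fun p : E2 => c + (p 0 • a + p 1 • b)) '' S) =
      ENNReal.ofReal (gramArea a b) * volume S := by
  have h := (lin2 a b).euclideanHausdorffMeasure_image_eq_normDet_mul_volume S
  rw [normDet_lin2] at h
  have hfr : Module.finrank ℝ E2 = 2 := by simp
  rw [hfr] at h
  rw [← h]
  have h2 : (fun p : E2 => c + (p 0 • a + p 1 • b)) '' S = (fun x => c + x) '' (lin2 a b '' S) := by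
    rw [Set.image_image]; rfl
  rw [h2]
  exact Isometry.euclideanHausdorffMeasure_image (isometry_add_left c) _

/-- The standard planar triangle. -/
def stdTri : Set E2 := {p | 0 ≤ p 0 ∧ 0 ≤ p 1 ∧ p 0 + p 1 ≤ 1}

/-- The standard unit square. -/
def stdSq : Set E2 := {p | (0 ≤ p 0 ∧ p 0 ≤ 1) ∧ (0 ≤ p 1 ∧ p 1 ≤ 1)}

end General

/-- the measurable equivalence `E2 ≃ ℝ × ℝ`, measure preserving -/
theorem mp_E2_prod : MeasurePreserving (fun p : E2 => ((p 0, p 1) : ℝ × ℝ)) volume volume := by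
  have h1 := EuclideanSpace.volume_preserving_symm_measurableEquiv_toLp (Fin 2)
  have h2 := volume_preserving_finTwoArrow ℝ
  exact h2.comp h1

theorem volume_E2_preimage (S : Set (ℝ × ℝ)) (hS : MeasurableSet S) :
    volume ((fun p : E2 => ((p 0, p 1) : ℝ × ℝ)) ⁻¹' S) = volume S :=
  mp_E2_prod.measure_preimage hS.nullMeasurableSet

theorem volume_stdSq : volume stdSq = 1 := by
  have h : stdSq = (fun p : E2 => ((p 0, p 1) : ℝ × ℝ)) ⁻¹' (Set.Icc 0 1 ×ˢ Set.Icc 0 1) := by
    ext p; simp [stdSq]; tauto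
  rw [h, volume_E2_preimage _ (measurableSet_Icc.prod measurableSet_Icc), Measure.volume_eq_prod,
    Measure.prod_prod]
  simp

theorem volume_stdTri : volume stdTri = ENNReal.ofReal (1 / 2) := by
  have h : stdTri = (fun p : E2 => ((p 0, p 1) : ℝ × ℝ)) ⁻¹' {q | 0 ≤ q.1 ∧ 0 ≤ q.2 ∧ q.1 + q.2 ≤ 1} := by
    ext p; simp [stdTri]
  have hm : MeasurableSet {q : ℝ × ℝ | 0 ≤ q.1 ∧ 0 ≤ q.2 ∧ q.1 + q.2 ≤ 1} := by
    apply IsClosed.measurableSet
    apply IsClosed.inter (isClosed_le continuous_const continuous_fst)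
    apply IsClosed.inter (isClosed_le continuous_const continuous_snd)
    exact isClosed_le (continuous_fst.add continuous_snd) continuous_const
  rw [h, volume_E2_preimage _ hm, Measure.volume_eq_prod, Measure.prod_apply hm]
  have h3 : ∀ x : ℝ, volume (Prod.mk x ⁻¹' {q : ℝ × ℝ | 0 ≤ q.1 ∧ 0 ≤ q.2 ∧ q.1 + q.2 ≤ 1}) =
      (Set.Icc (0 : ℝ) 1).indicator (fun x => ENNReal.ofReal (1 - x)) x := by
    intro x
    by_cases hx : x ∈ Set.Icc (0 : ℝ) 1
    · rw [Set.indicator_of_mem hx]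
      have : Prod.mk x ⁻¹' {q : ℝ × ℝ | 0 ≤ q.1 ∧ 0 ≤ q.2 ∧ q.1 + q.2 ≤ 1} = Set.Icc 0 (1 - x) := by
        ext y
        simp only [Set.mem_preimage, Set.mem_ofPred_eq, Set.mem_Icc]
        constructor
        · rintro ⟨_, h2, h3⟩; exact ⟨h2, by linarith⟩
        · rintro ⟨h2, h3⟩; exact ⟨hx.1, h2, by linarith⟩
      rw [this, Real.volume_Icc, sub_zero]
    · rw [Set.indicator_of_notMem hx]
      have : Prod.mk x ⁻¹' {q : ℝ × ℝ | 0 ≤ q.1 ∧ 0 ≤ q.2 ∧ q.1 + q.2 ≤ 1} = ∅ := by
        ext y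
        simp only [Set.mem_preimage, Set.mem_ofPred_eq, Set.mem_empty_iff_false, iff_false]
        rintro ⟨h1, h2, h3⟩
        exact hx ⟨h1, by linarith⟩
      rw [this, measure_empty]
  simp_rw [h3]
  rw [lintegral_indicator measurableSet_Icc]
  rw [← ofReal_integral_eq_lintegral_ofReal]
  · congr 1
    rw [integral_Icc_eq_integral_Ioc, ← intervalIntegral.integral_of_le zero_le_one,
      intervalIntegral.integral_sub (by simp) (by simp)]
    simp
    norm_num
  · exact (continuous_const.sub continuous_id).integrableOn_Icc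
  · filter_upwards [ae_restrict_mem measurableSet_Icc] with x hx
    simp only [Pi.zero_apply]
    linarith [hx.2]

section General2

variable {E : Type*} [NormedAddCommGroup E] [InnerProductSpace ℝ E]

theorem convexHull_triple_eq_image (p q r : E) :
    convexHull ℝ {p, q, r} = (fun x : E2 => p + (x 0 • (q - p) + x 1 • (r - p))) '' stdTri := by
  ext x
  rw [convexHull_insert (Set.insert_nonempty _ _), convexHull_pair]
  simp only [Set.mem_image, stdTri, Set.mem_ofPred_eq]
  rw [mem_convexJoin]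
  constructor
  · rintro ⟨p', hp', y, hy, hx⟩
    rw [Set.mem_singleton_iff] at hp'
    subst hp'
    obtain ⟨a, b, ha, hb, hab, rfl⟩ := hy
    obtain ⟨c, d, hc, hd, hcd, rfl⟩ := hx
    refine ⟨!₂[d * a, d * b], ⟨by simp; positivity, by simp; positivity, ?_⟩, ?_⟩
    · simp
      rw [← mul_add, hab]; linarith
    · simp only [Matrix.cons_val_zero, Matrix.cons_val_one]
      have hc' : c = 1 - d := by linarith
      have hb' : d = d * a + d * b := by rw [← mul_add, hab, mul_one]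
      have : (1 - d) • p' = p' - (d * a) • p' - (d * b) • p' := by
        rw [sub_smul, one_smul, sub_sub, ← add_smul, ← hb']
      rw [hc', this]
      simp only [smul_add, smul_sub, mul_smul]
      abel
  · rintro ⟨z, ⟨h0, h1, h2⟩, rfl⟩
    refine ⟨p, Set.mem_singleton _, ?_⟩
    by_cases hs : z 0 + z 1 = 0
    · have hz0 : z 0 = 0 := by linarith
      have hz1 : z 1 = 0 := by linarith
      refine ⟨q, left_mem_segment _ _ _, ?_⟩
      rw [hz0, hz1]
      simp only [zero_smul, add_zero]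
      exact left_mem_segment _ _ _
    · have hpos : 0 < z 0 + z 1 := lt_of_le_of_ne (by linarith) (Ne.symm hs)
      refine ⟨(z 0 / (z 0 + z 1)) • q + (z 1 / (z 0 + z 1)) • r,
        ⟨z 0 / (z 0 + z 1), z 1 / (z 0 + z 1), by positivity, by positivity, ?_, rfl⟩, ?_⟩
      · rw [← add_div, div_self hs]
      · refine ⟨1 - (z 0 + z 1), z 0 + z 1, by linarith, by linarith, by ring, ?_⟩
        rw [smul_add, smul_smul, smul_smul, mul_div_cancel₀ _ hs, mul_div_cancel₀ _ hs, sub_smul,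
          one_smul, add_smul, smul_sub, smul_sub]
        abel

theorem parallelogram_eq_image (c a b : E) :
    {x : E | ∃ s ∈ Set.Icc (0 : ℝ) 1, ∃ t ∈ Set.Icc (0 : ℝ) 1, x = c + s • a + t • b} =
      (fun x : E2 => c + (x 0 • a + x 1 • b)) '' stdSq := by
  ext x
  simp only [Set.mem_ofPred_eq, Set.mem_image, stdSq, Set.mem_Icc]
  constructor
  · rintro ⟨s, hs, t, ht, rfl⟩
    exact ⟨!₂[s, t], ⟨by simpa using hs, by simpa using ht⟩, by simp [add_assoc]⟩
  · rintro ⟨z, ⟨h0, h1⟩, rfl⟩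
    exact ⟨z 0, h0, z 1, h1, by rw [add_assoc]⟩

variable [MeasurableSpace E] [BorelSpace E]

/-- Area of a triangle. -/
theorem muHE_triangle (p q r : E) :
    μHE[2] (convexHull ℝ {p, q, r}) = ENNReal.ofReal (gramArea (q - p) (r - p) / 2) := by
  rw [convexHull_triple_eq_image, muHE_image, volume_stdTri,
    ← ENNReal.ofReal_mul (gramArea_nonneg _ _)]
  congr 1; ring

/-- Area of a parallelogram. -/
theorem muHE_parallelogram (c a b : E) :
    μHE[2] {x : E | ∃ s ∈ Set.Icc (0 : ℝ) 1, ∃ t ∈ Set.Icc (0 : ℝ) 1, x = c + s • a + t • b} =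
      ENNReal.ofReal (gramArea a b) := by
  rw [parallelogram_eq_image, muHE_image, volume_stdSq, mul_one]

/-- The constant relating `μH[2]` and `μHE[2]`. -/
noncomputable def hconst : NNReal :=
  Measure.addHaarScalarFactor (volume : Measure (EuclideanSpace ℝ (Fin 2))) μH[(2 : ℕ)]

theorem hconst_pos : 0 < hconst :=
  pos_iff_ne_zero.mpr (Measure.addHaarScalarFactor_volume_hausdorffMeasure_ne_zero 2)

theorem muHE_eq_hconst_mul (S : Set E) : μHE[2] S = (hconst : ℝ≥0∞) * μH[(2 : ℝ)] S := by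
  rw [Measure.euclideanHausdorffMeasure_def, Measure.smul_apply]
  simp only [Nat.cast_ofNat]
  rw [ENNReal.smul_def, smul_eq_mul, hconst]
  simp

theorem muHE_toReal_eq_hconst_mul (S : Set E) :
    (μHE[2] S).toReal = (hconst : ℝ) * (μH[(2 : ℝ)] S).toReal := by
  rw [muHE_eq_hconst_mul, ENNReal.toReal_mul]; rfl

end General2

/-! ### Orthogonal projections in `E3` -/

/-- Orthogonal projection along the (unit) vector `u`. -/
noncomputable def proj (u : E3) : E3 →ₗ[ℝ] E3 where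
  toFun y := y - inner ℝ y u • u
  map_add' x y := by rw [inner_add_left, add_smul]; abel
  map_smul' c y := by
    rw [real_inner_smul_left, mul_smul, smul_sub, RingHom.id_apply]

theorem proj_apply (u y : E3) : proj u y = y - inner ℝ y u • u := rfl

theorem inner_proj {u : E3} (hu : ‖u‖ = 1) (y : E3) : inner ℝ (proj u y) u = 0 := by
  rw [proj_apply, inner_sub_left, real_inner_smul_left, real_inner_self_eq_norm_sq, hu]
  ring

theorem image_proj_convexHull (u p q r : E3) :
    proj u '' convexHull ℝ {p, q, r} = convexHull ℝ {proj u p, proj u q, proj u r} := by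
  rw [(proj u).image_convexHull, Set.image_insert_eq, Set.image_pair]

/-- The cylinder over a set only depends on its projection. -/
theorem cylinder_proj (u : E3) (B : Set E3) :
    {x : E3 | ∃ b ∈ proj u '' B, ∃ t : ℝ, x = b + t • u} =
      {x : E3 | ∃ b ∈ B, ∃ t : ℝ, x = b + t • u} := by
  ext x
  constructor
  · rintro ⟨_, ⟨b, hb, rfl⟩, t, rfl⟩
    exact ⟨b, hb, t - inner ℝ b u, by rw [proj_apply, sub_smul]; abel⟩
  · rintro ⟨b, hb, t, rfl⟩
    exact ⟨_, ⟨b, hb, rfl⟩, t + inner ℝ b u, by rw [proj_apply, add_smul]; abel⟩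

/-- Determinant of three vectors of `E3`. -/
def det3 (a b c : E3) : ℝ :=
  a 0 * (b 1 * c 2 - b 2 * c 1) - a 1 * (b 0 * c 2 - b 2 * c 0) + a 2 * (b 0 * c 1 - b 1 * c 0)

theorem inner_E3 (a b : E3) : inner ℝ a b = a 0 * b 0 + a 1 * b 1 + a 2 * b 2 := by
  simp [PiLp.inner_apply, Fin.sum_univ_three, mul_comm]

theorem norm_sq_E3 (a : E3) : ‖a‖ ^ 2 = a 0 ^ 2 + a 1 ^ 2 + a 2 ^ 2 := by
  rw [← real_inner_self_eq_norm_sq, inner_E3]; ring

/-- Area of the projected parallelogram. -/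
theorem gramArea_proj {u : E3} (hu : ‖u‖ = 1) (a b : E3) :
    gramArea (proj u a) (proj u b) = |det3 a b u| := by
  have hu2 : u 0 ^ 2 + u 1 ^ 2 + u 2 ^ 2 = 1 := by rw [← norm_sq_E3, hu]; norm_num
  have haa : ‖proj u a‖ ^ 2 = ‖a‖ ^ 2 - inner ℝ a u ^ 2 := by
    rw [proj_apply, norm_sub_sq_real, real_inner_smul_right, norm_smul, hu]
    simp
    ring
  have hbb : ‖proj u b‖ ^ 2 = ‖b‖ ^ 2 - inner ℝ b u ^ 2 := by
    rw [proj_apply, norm_sub_sq_real, real_inner_smul_right, norm_smul, hu]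
    simp
    ring
  have hab : inner ℝ (proj u a) (proj u b) = inner ℝ a b - inner ℝ a u * inner ℝ b u := by
    rw [proj_apply, proj_apply, inner_sub_left, inner_sub_right, inner_sub_right,
      real_inner_smul_left, real_inner_smul_right, real_inner_smul_left, real_inner_smul_right,
      real_inner_self_eq_norm_sq, hu, real_inner_comm u b]
    ring
  rw [gramArea, haa, hbb, hab, ← Real.sqrt_sq_eq_abs]
  congr 1
  simp only [norm_sq_E3, inner_E3, det3]
  have h0 : u 0 ^ 2 = 1 - u 1 ^ 2 - u 2 ^ 2 := by linarith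
  linear_combination (exp := 1) (-(a 0 ^ 2 + a 1 ^ 2 + a 2 ^ 2) * (b 0 ^ 2 + b 1 ^ 2 + b 2 ^ 2) +
    (a 0 * b 0 + a 1 * b 1 + a 2 * b 2) ^ 2) * hu2

theorem det3_eq_zero_of_perp {e a b w : E3} (he : ‖e‖ = 1) (ha : inner ℝ a e = 0)
    (hb : inner ℝ b e = 0) (hw : inner ℝ w e = 0) : det3 a b w = 0 := by
  have he2 : e 0 ^ 2 + e 1 ^ 2 + e 2 ^ 2 = 1 := by rw [← norm_sq_E3, he]; norm_num
  rw [inner_E3] at ha hb hw
  have h0 : det3 a b w * e 0 = 0 := by
    unfold det3
    linear_combination (b 1 * w 2 - b 2 * w 1) * ha - (a 1 * w 2 - a 2 * w 1) * hb +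
      (a 1 * b 2 - a 2 * b 1) * hw
  have h1 : det3 a b w * e 1 = 0 := by
    unfold det3
    linear_combination -(b 0 * w 2 - b 2 * w 0) * ha + (a 0 * w 2 - a 2 * w 0) * hb -
      (a 0 * b 2 - a 2 * b 0) * hw
  have h2 : det3 a b w * e 2 = 0 := by
    unfold det3
    linear_combination (b 0 * w 1 - b 1 * w 0) * ha - (a 0 * w 1 - a 1 * w 0) * hb +
      (a 0 * b 1 - a 1 * b 0) * hw
  linear_combination e 0 * h0 + e 1 * h1 + e 2 * h2 - det3 a b w * he2

theorem proj_eq_self {e a : E3} (ha : inner ℝ a e = 0) : proj e a = a := by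
  rw [proj_apply, ha, zero_smul, sub_zero]

theorem gramArea_perp {e a b : E3} (he : ‖e‖ = 1) (ha : inner ℝ a e = 0)
    (hb : inner ℝ b e = 0) : gramArea a b = |det3 a b e| := by
  rw [← gramArea_proj he, proj_eq_self ha, proj_eq_self hb]

theorem norm_add_perp {e w : E3} (he : ‖e‖ = 1) (hw : inner ℝ w e = 0) :
    ‖e + w‖ = Real.sqrt (1 + ‖w‖ ^ 2) := by
  rw [← Real.sqrt_sq (norm_nonneg (e + w)), norm_add_sq_real, he, real_inner_comm, hw]
  congr 1; ring

theorem norm_add_perp_pos {e w : E3} (he : ‖e‖ = 1) (hw : inner ℝ w e = 0) :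
    0 < ‖e + w‖ := by
  rw [norm_add_perp he hw]; positivity

theorem norm_unit {v : E3} (hv : 0 < ‖v‖) : ‖(‖v‖⁻¹ • v)‖ = 1 := by
  rw [norm_smul, norm_inv, norm_norm, inv_mul_cancel₀ hv.ne']

/-- Area of the base of the (oblique) cylinder over a parallelogram in `e^⊥` with direction
`e + w`, `w ⊥ e`. -/
theorem gramArea_proj_add {e a b w : E3} (he : ‖e‖ = 1) (ha : inner ℝ a e = 0)
    (hb : inner ℝ b e = 0) (hw : inner ℝ w e = 0) :
    gramArea (proj (‖e + w‖⁻¹ • (e + w)) a) (proj (‖e + w‖⁻¹ • (e + w)) b) =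
      gramArea a b / Real.sqrt (1 + ‖w‖ ^ 2) := by
  have hpos := norm_add_perp_pos he hw
  rw [gramArea_proj (norm_unit hpos), gramArea_perp he ha hb]
  have h : det3 a b (‖e + w‖⁻¹ • (e + w)) = ‖e + w‖⁻¹ * (det3 a b e + det3 a b w) := by
    simp only [det3, PiLp.smul_apply, PiLp.add_apply, smul_eq_mul]; ring
  rw [h, det3_eq_zero_of_perp he ha hb hw, add_zero, abs_mul, abs_of_pos (inv_pos.mpr hpos),
    norm_add_perp he hw]
  ring

/-- scaling the direction of a projection formula: the non-normalised formula -/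
theorem proj_normalise (v y : E3) (hv : 0 < ‖v‖) :
    y - (inner ℝ y v / ‖v‖ ^ 2) • v = proj (‖v‖⁻¹ • v) y := by
  rw [proj_apply, real_inner_smul_right, smul_smul]
  congr 2
  field_simp

end Crest.Agent.R211
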