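import Crest.Agent.R211.CoverArith

set_option autoImplicit false

namespace Crest.Agent.R211

/-- squared speed -/
noncomputable def qq (n i : ℕ) : ℝ := (wy n i) ^ 2 + 2 * (wz n i) ^ 2

/-- rescaled base area of the `i`-th cylinder -/
noncomputable def pieceArea (n i : ℕ) : ℝ := RR n i ^ 2 / n / Real.sqrt (1 + qq n i)

noncomputable def FF (t : ℝ) : ℝ := (7 * t ^ 5 / 5 - 2 * t ^ 3 / 3 - t) / 32

theorem inv_sqrt_bound (q : ℝ) (hq : 0 ≤ q) (hq1 : q ≤ 1) :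
    1 / Real.sqrt (1 + q) ≤ 1 - q / 2 + q ^ 2 / 2 := by
  have h1 : 1 + q / 2 - q ^ 2 / 8 ≤ Real.sqrt (1 + q) := by
    apply Real.le_sqrt_of_sq_le
    nlinarith [pow_nonneg hq 3, mul_nonneg (pow_nonneg hq 3) (sub_nonneg.mpr hq1)]
  have h2 : 0 < Real.sqrt (1 + q) := Real.sqrt_pos.mpr (by linarith)
  rw [div_le_iff₀ h2]
  have h3 : 0 ≤ 1 - q / 2 + q ^ 2 / 2 := by nlinarith
  calc (1 : ℝ) ≤ (1 - q / 2 + q ^ 2 / 2) * (1 + q / 2 - q ^ 2 / 8) := by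
        nlinarith [pow_nonneg hq 3, mul_nonneg (pow_nonneg hq 3) (sub_nonneg.mpr hq1)]
    _ ≤ _ := mul_le_mul_of_nonneg_left h1 h3

theorem piece_bound (n i : ℕ) (hn : 1000000 ≤ n) (hi : i < n) :
    pieceArea n i ≤ (1 / n : ℝ) * (1 / 4 + 401 / 10 ^ 11) +
      (ep ^ 2 / 2) * (FF (tt n (i + 1)) - FF (tt n i)) := by
  have hn0 : 0 < n := by omega
  have hnR : (1000000 : ℝ) ≤ n := by exact_mod_cast hn
  have hnpos : (0 : ℝ) < n := by linarith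
  have hh : (1 : ℝ) / n ≤ 1 / 1000000 := one_div_le_one_div_of_le (by norm_num) hnR
  have hhpos : (0 : ℝ) < 1 / n := by positivity
  have hep : ep = 1 / 1000 := rfl
  have hc := abs_cc_le n i hi
  have ht : tt n i = cc n i - 1 / n := by rw [cc_eq_tt_add]; ring
  have ht' : tt n (i + 1) = cc n i + 1 / n := tt_succ n i
  unfold pieceArea
  rw [ht, ht']
  have hR : RR n i = 1 / 2 + (ep ^ 2 * ((cc n i) ^ 2 + (cc n i) ^ 4) / 4 + 3 * ep ^ 3 + ep * (1 / n)) := by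
    unfold RR; ring
  have hq : qq n i = ep ^ 2 * (((cc n i) ^ 2 + 1 - (1 / n) ^ 2) ^ 2 / 4 + 2 * (cc n i) ^ 2) := by
    unfold qq wy wz; ring
  rw [hR, hq, div_div, mul_comm (n : ℝ), ← div_div, div_eq_mul_one_div _ (n : ℝ), mul_comm _ (1 / (n : ℝ))]
  set c := cc n i
  set h : ℝ := 1 / n with hhdef
  rw [hep]
  have hc' := abs_le.mp hc
  have hc2 : c ^ 2 ≤ 1 := by rw [← sq_abs]; exact pow_le_one₀ (abs_nonneg _) hc
  have hc0 : 0 ≤ c ^ 2 := sq_nonneg _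
  have hc4 : c ^ 4 ≤ 1 := by
    have : c ^ 4 = (c ^ 2) ^ 2 := by ring
    rw [this]; exact pow_le_one₀ hc0 hc2
  have hc40 : 0 ≤ c ^ 4 := by positivity
  have hh2 : h ^ 2 ≤ 1 / 10 ^ 12 := by
    calc h ^ 2 ≤ (1 / 1000000) ^ 2 := pow_le_pow_left₀ hhpos.le hh 2
      _ = 1 / 10 ^ 12 := by norm_num
  have hh20 : 0 ≤ h ^ 2 := sq_nonneg _
  -- kappa bounds
  set κ : ℝ := (c ^ 2 + 1 - h ^ 2) ^ 2 / 4 + 2 * c ^ 2 with hκ
  have hκ0 : 0 ≤ κ := by positivity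
  have hκ3 : κ ≤ 3 := by
    have h1 : 0 ≤ c ^ 2 + 1 - h ^ 2 := by linarith
    have h2 : (c ^ 2 + 1 - h ^ 2) ^ 2 ≤ 2 ^ 2 := pow_le_pow_left₀ h1 (by linarith) 2
    rw [hκ]; linarith
  have hκl : (c ^ 2 + 1) ^ 2 / 4 + 2 * c ^ 2 - h ^ 2 ≤ κ := by
    have : κ = (c ^ 2 + 1) ^ 2 / 4 + 2 * c ^ 2 - h ^ 2 * (c ^ 2 + 1) / 2 + (h ^ 2) ^ 2 / 4 := by
      rw [hκ]; ring
    rw [this]
    have : h ^ 2 * (c ^ 2 + 1) ≤ h ^ 2 * 2 := mul_le_mul_of_nonneg_left (by linarith) hh20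
    linarith [sq_nonneg (h ^ 2)]
  set q : ℝ := (1 / 1000) ^ 2 * κ with hqdef
  have hq0 : 0 ≤ q := by positivity
  have hq1 : q ≤ 3 / 10 ^ 6 := by rw [hqdef]; linarith
  have hs := inv_sqrt_bound q hq0 (by linarith)
  set a : ℝ := (1 / 1000) ^ 2 * (c ^ 2 + c ^ 4) / 4 + 3 * (1 / 1000) ^ 3 + 1 / 1000 * h with ha
  have ha0 : 0 ≤ a := by positivity
  have ha1 : a ≤ 6 / 10 ^ 7 := by rw [ha]; linarith
  have ha2 : a ^ 2 ≤ 36 / 10 ^ 14 := by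
    calc a ^ 2 ≤ (6 / 10 ^ 7) ^ 2 := pow_le_pow_left₀ ha0 ha1 2
      _ = 36 / 10 ^ 14 := by norm_num
  have hq2 : q ^ 2 ≤ 9 / 10 ^ 12 := by
    calc q ^ 2 ≤ (3 / 10 ^ 6) ^ 2 := pow_le_pow_left₀ hq0 hq1 2
      _ = 9 / 10 ^ 12 := by norm_num
  have hR2 : (1 / 2 + a) ^ 2 = 1 / 4 + a + a ^ 2 := by ring
  have hmain : (1 / 2 + a) ^ 2 * (1 / Real.sqrt (1 + q)) ≤
      1 / 4 + a - q / 8 + 2 / 10 ^ 12 * 1 + 36 / 10 ^ 14 := by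
    have hR2le : (1 / 2 + a) ^ 2 ≤ 3 / 10 := by rw [hR2]; linarith
    have hR2ge : 1 / 4 ≤ (1 / 2 + a) ^ 2 := by rw [hR2]; linarith [sq_nonneg a]
    calc (1 / 2 + a) ^ 2 * (1 / Real.sqrt (1 + q))
        ≤ (1 / 2 + a) ^ 2 * (1 - q / 2 + q ^ 2 / 2) :=
          mul_le_mul_of_nonneg_left hs (sq_nonneg _)
      _ = (1 / 2 + a) ^ 2 - (1 / 2 + a) ^ 2 * q / 2 + (1 / 2 + a) ^ 2 * q ^ 2 / 2 := by ring
      _ ≤ (1 / 2 + a) ^ 2 - (1 / 4) * q / 2 + (3 / 10) * q ^ 2 / 2 := by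
          have h1 := mul_le_mul_of_nonneg_right hR2ge hq0
          have h2 := mul_le_mul_of_nonneg_right hR2le (sq_nonneg q)
          linarith
      _ ≤ _ := by rw [hR2]; linarith
  have hF : FF (c + h) - FF (c - h) =
      h * (2 * ((7 * c ^ 4 - 2 * c ^ 2 - 1) / 32 + (14 * c ^ 2 * h ^ 2 + 7 * h ^ 4 / 5 - 2 * h ^ 2 / 3) / 32)) := by
    unfold FF; ring
  rw [hF]
  have hFl : (7 * c ^ 4 - 2 * c ^ 2 - 1) / 32 - h ^ 2 / 48 ≤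
      ((7 * c ^ 4 - 2 * c ^ 2 - 1) / 32 + (14 * c ^ 2 * h ^ 2 + 7 * h ^ 4 / 5 - 2 * h ^ 2 / 3) / 32) := by
    have : 0 ≤ 14 * c ^ 2 * h ^ 2 + 7 * h ^ 4 / 5 := by positivity
    linarith
  have hfin : (1 / 2 + a) ^ 2 / Real.sqrt (1 + q) ≤ (1 / 4 + 401 / 10 ^ 11) + ((1 / 1000) ^ 2 / 2) *
      (2 * ((7 * c ^ 4 - 2 * c ^ 2 - 1) / 32 + (14 * c ^ 2 * h ^ 2 + 7 * h ^ 4 / 5 - 2 * h ^ 2 / 3) / 32)) := by
    rw [div_eq_mul_one_div]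
    refine hmain.trans ?_
    have e1 : a - q / 8 ≤ (1 / 1000) ^ 2 * ((7 * c ^ 4 - 2 * c ^ 2 - 1) / 32) +
        (1 / 1000) ^ 2 * (h ^ 2 / 8) + 3 * (1 / 1000) ^ 3 + 1 / 1000 * h := by
      rw [ha, hqdef]
      have : (c ^ 2 + 1) ^ 2 = c ^ 4 + 2 * c ^ 2 + 1 := by ring
      rw [this] at hκl
      linarith
    linarith
  calc _ = h * ((1 / 2 + a) ^ 2 / Real.sqrt (1 + q)) := by ring
    _ ≤ h * _ := mul_le_mul_of_nonneg_left hfin hhpos.le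
    _ = _ := by ring

theorem area_sum (n : ℕ) (hn : 1000000 ≤ n) :
    ∑ i ∈ Finset.range n, pieceArea n i ≤ 1 / 4 - 4 / 10 ^ 9 := by
  have hn0 : 0 < n := by omega
  have hnpos : (0 : ℝ) < n := by exact_mod_cast hn0
  calc ∑ i ∈ Finset.range n, pieceArea n i
      ≤ ∑ i ∈ Finset.range n, ((1 / n : ℝ) * (1 / 4 + 401 / 10 ^ 11) +
      (ep ^ 2 / 2) * (FF (tt n (i + 1)) - FF (tt n i))) :=
        Finset.sum_le_sum fun i hi => piece_bound n i hn (Finset.mem_range.mp hi)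
    _ = (1 / 4 + 401 / 10 ^ 11) + (ep ^ 2 / 2) * (FF 1 - FF (-1)) := by
        rw [Finset.sum_add_distrib, ← Finset.mul_sum, ← Finset.mul_sum, Finset.sum_const,
          Finset.card_range,
          Finset.sum_range_sub (fun i => FF (tt n i)), tt_zero, tt_last n hn0, nsmul_eq_mul]
        field_simp
    _ ≤ 1 / 4 - 4 / 10 ^ 9 := by
        unfold FF ep; norm_num

end Crest.Agent.R211
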