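import Crest.Agent.R211.K0
import Crest.Agent.R211.CoverSum

/-! Explicit cover of the standard regular tetrahedron by triangular cylinders. -/

set_option autoImplicit false
open MeasureTheory
open scoped ENNReal

namespace Crest.Agent.R211

/-- Membership in a cylinder over a projected triangle. -/
theorem mem_cyl {v A B C x : E3} (hv : 0 < ‖v‖) {α β τ : ℝ} (hα : 0 ≤ α) (hβ : 0 ≤ β)
    (hαβ : α + β ≤ 1) (hx : x = A + (α • (B - A) + β • (C - A)) + τ • v) :
    ∃ b ∈ convexHull ℝ {proj (‖v‖⁻¹ • v) A, proj (‖v‖⁻¹ • v) B, proj (‖v‖⁻¹ • v) C},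
      ∃ t : ℝ, x = b + t • (‖v‖⁻¹ • v) := by
  have h : x ∈ {x : E3 | ∃ b ∈ convexHull ℝ {A, B, C}, ∃ t : ℝ, x = b + t • (‖v‖⁻¹ • v)} := by
    refine ⟨A + (α • (B - A) + β • (C - A)), ?_, τ * ‖v‖, ?_⟩
    · rw [convexHull_triple_eq_image]
      refine ⟨!₂[α, β], ⟨by simpa using hα, by simpa using hβ, by simpa using hαβ⟩, ?_⟩
      simp
    · rw [smul_smul, mul_assoc, mul_inv_cancel₀ hv.ne', mul_one]; exact hx
  rw [← cylinder_proj, image_proj_convexHull] at h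
  exact h

/-- Area of the base of a cylinder over a projected triangle. -/
theorem area_cyl {v A B C : E3} (hv : 0 < ‖v‖) :
    (μHE[2] (convexHull ℝ ({proj (‖v‖⁻¹ • v) A, proj (‖v‖⁻¹ • v) B,
      proj (‖v‖⁻¹ • v) C} : Set E3))).toReal = |det3 (B - A) (C - A) v| / ‖v‖ / 2 := by
  rw [muHE_triangle, ← map_sub, ← map_sub, gramArea_proj (norm_unit hv),
    ENNReal.toReal_ofReal (by positivity)]
  have h : det3 (B - A) (C - A) (‖v‖⁻¹ • v) = ‖v‖⁻¹ * det3 (B - A) (C - A) v := by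
    simp only [det3, PiLp.smul_apply, smul_eq_mul]; ring
  rw [h, abs_mul, abs_of_pos (inv_pos.mpr hv)]
  ring

/-- The tetrahedron in rescaled coordinates. -/
theorem K0_bounds {x : E3} (hx : x ∈ K0) :
    |x 0| ≤ 1 - x 2 / Real.sqrt 2 ∧ |x 1| ≤ x 2 / Real.sqrt 2 := by
  have hs : 0 < Real.sqrt 2 := by positivity
  have hconv : Convex ℝ {x : E3 | |x 0| ≤ 1 - x 2 / Real.sqrt 2 ∧ |x 1| ≤ x 2 / Real.sqrt 2} := by
    intro a ha b hb s t hs0 ht0 hst
    obtain ⟨ha1, ha2⟩ := ha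
    obtain ⟨hb1, hb2⟩ := hb
    simp only [Set.mem_ofPred_eq, PiLp.add_apply, PiLp.smul_apply, smul_eq_mul]
    constructor
    · calc |s * a 0 + t * b 0| ≤ |s * a 0| + |t * b 0| := abs_add_le _ _
        _ = s * |a 0| + t * |b 0| := by rw [abs_mul, abs_mul, abs_of_nonneg hs0, abs_of_nonneg ht0]
        _ ≤ s * (1 - a 2 / Real.sqrt 2) + t * (1 - b 2 / Real.sqrt 2) :=
            add_le_add (mul_le_mul_of_nonneg_left ha1 hs0) (mul_le_mul_of_nonneg_left hb1 ht0)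
        _ = (s + t) - (s * a 2 + t * b 2) / Real.sqrt 2 := by ring
        _ = _ := by rw [hst]
    · calc |s * a 1 + t * b 1| ≤ |s * a 1| + |t * b 1| := abs_add_le _ _
        _ = s * |a 1| + t * |b 1| := by rw [abs_mul, abs_mul, abs_of_nonneg hs0, abs_of_nonneg ht0]
        _ ≤ s * (a 2 / Real.sqrt 2) + t * (b 2 / Real.sqrt 2) :=
            add_le_add (mul_le_mul_of_nonneg_left ha2 hs0) (mul_le_mul_of_nonneg_left hb2 ht0)
        _ = _ := by ring
  refine convexHull_min ?_ hconv hx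
  intro y hy
  simp only [Set.mem_insert_iff, Set.mem_singleton_iff] at hy
  have h2 : Real.sqrt 2 / Real.sqrt 2 = 1 := div_self hs.ne'
  rcases hy with rfl | rfl | rfl | rfl <;> simp

/-- directions of the lower cylinders -/
noncomputable def vb (n i : ℕ) : E3 := !₂[1, wy n i, Real.sqrt 2 * wz n i]
/-- directions of the upper cylinders -/
noncomputable def vt (n i : ℕ) : E3 := !₂[-wy n i, 1, -(Real.sqrt 2 * wz n i)]
/-- second vertex of the lower triangles -/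
noncomputable def Bb (n i : ℕ) : E3 := !₂[0, RR n i * tt n i, Real.sqrt 2 * RR n i]
/-- third vertex of the lower triangles -/
noncomputable def Cb (n i : ℕ) : E3 := !₂[0, RR n i * tt n (i + 1), Real.sqrt 2 * RR n i]
/-- apex of the upper triangles -/
noncomputable def At : E3 := !₂[0, 0, Real.sqrt 2]
/-- second vertex of the upper triangles -/
noncomputable def Bt (n i : ℕ) : E3 :=
  !₂[-(RR n i * tt n i), 0, Real.sqrt 2 - Real.sqrt 2 * RR n i]
/-- third vertex of the upper triangles -/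
noncomputable def Ct (n i : ℕ) : E3 :=
  !₂[-(RR n i * tt n (i + 1)), 0, Real.sqrt 2 - Real.sqrt 2 * RR n i]

theorem sqrt2_sq : Real.sqrt 2 ^ 2 = 2 := Real.sq_sqrt (by norm_num)

theorem qq_nonneg (n i : ℕ) : 0 ≤ qq n i := by unfold qq; positivity

theorem norm_vb (n i : ℕ) : ‖vb n i‖ = Real.sqrt (1 + qq n i) := by
  rw [← Real.sqrt_sq (norm_nonneg (vb n i)), norm_sq_E3]
  congr 1
  simp [vb, qq, mul_pow]; ring

theorem norm_vt (n i : ℕ) : ‖vt n i‖ = Real.sqrt (1 + qq n i) := by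
  rw [← Real.sqrt_sq (norm_nonneg (vt n i)), norm_sq_E3]
  congr 1
  simp [vt, qq, mul_pow]; ring

theorem norm_vb_pos (n i : ℕ) : 0 < ‖vb n i‖ := by
  rw [norm_vb]; exact Real.sqrt_pos.mpr (by linarith [qq_nonneg n i])

theorem norm_vt_pos (n i : ℕ) : 0 < ‖vt n i‖ := by
  rw [norm_vt]; exact Real.sqrt_pos.mpr (by linarith [qq_nonneg n i])

theorem tt_diff (n i : ℕ) : tt n (i + 1) - tt n i = 2 / n := by
  rw [tt_succ, cc_eq_tt_add]; ring

theorem RR_pos (n i : ℕ) : 0 < RR n i := by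
  unfold RR ep; positivity

theorem area_b (n i : ℕ) :
    |det3 (Bb n i - 0) (Cb n i - 0) (vb n i)| / ‖vb n i‖ / 2 = Real.sqrt 2 * pieceArea n i := by
  have h : det3 (Bb n i - 0) (Cb n i - 0) (vb n i) = -(Real.sqrt 2 * RR n i ^ 2 * (2 / n)) := by
    rw [← tt_diff n i]
    simp [det3, Bb, Cb, vb]; ring
  rw [h, norm_vb, abs_neg, abs_of_nonneg (by positivity), pieceArea]
  ring

theorem area_t (n i : ℕ) :
    |det3 (Bt n i - At) (Ct n i - At) (vt n i)| / ‖vt n i‖ / 2 = Real.sqrt 2 * pieceArea n i := by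
  have h : det3 (Bt n i - At) (Ct n i - At) (vt n i) = Real.sqrt 2 * RR n i ^ 2 * (2 / n) := by
    rw [← tt_diff n i]
    simp [det3, Bt, Ct, At, vt]; ring
  rw [h, norm_vt, abs_of_nonneg (by positivity), pieceArea]
  ring

/-- the barycentric weights -/
theorem weights {t t' h R y z : ℝ} (ht : t' - t = 2 * h) (hh : 0 < h) (hR : 0 < R)
    (h1 : t * z ≤ y) (h2 : y ≤ t' * z) (h3 : z ≤ R) :
    ∃ α β : ℝ, 0 ≤ α ∧ 0 ≤ β ∧ α + β ≤ 1 ∧ (α + β) * R = z ∧ (α * t + β * t') * R = y := by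
  refine ⟨(t' * z - y) / (2 * h * R), (y - t * z) / (2 * h * R),
    div_nonneg (by linarith) (by positivity), div_nonneg (by linarith) (by positivity), ?_, ?_, ?_⟩
  · rw [← add_div, div_le_one (by positivity)]
    have : t' * z - y + (y - t * z) = 2 * h * z := by rw [← ht]; ring
    rw [this]
    exact mul_le_mul_of_nonneg_left h3 (by positivity)
  · rw [← add_div]
    have : t' * z - y + (y - t * z) = 2 * h * z := by rw [← ht]; ring
    rw [this]; field_simp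
  · have : (t' * z - y) * t + (y - t * z) * t' = 2 * h * y := by
      rw [← ht]; ring
    field_simp
    linarith

theorem mem_lower (n i : ℕ) (hn : 0 < n) (x : E3)
    (h1 : tt n i * (x 2 / Real.sqrt 2 - x 0 * wz n i) ≤ x 1 - x 0 * wy n i)
    (h2 : x 1 - x 0 * wy n i ≤ tt n (i + 1) * (x 2 / Real.sqrt 2 - x 0 * wz n i))
    (h3 : x 2 / Real.sqrt 2 - x 0 * wz n i ≤ RR n i) :
    ∃ b ∈ convexHull ℝ {proj (‖vb n i‖⁻¹ • vb n i) 0, proj (‖vb n i‖⁻¹ • vb n i) (Bb n i),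
      proj (‖vb n i‖⁻¹ • vb n i) (Cb n i)}, ∃ t : ℝ, x = b + t • (‖vb n i‖⁻¹ • vb n i) := by
  have hs : Real.sqrt 2 ≠ 0 := by positivity
  have hnR : (0 : ℝ) < n := by exact_mod_cast hn
  obtain ⟨α, β, hα, hβ, hαβ, e1, e2⟩ := weights (h := 1 / n) (by rw [tt_diff]; ring)
    (by positivity) (RR_pos n i) h1 h2 h3
  refine mem_cyl (norm_vb_pos n i) hα hβ hαβ (τ := x 0) ?_
  ext k
  fin_cases k
  · simp [Bb, Cb, vb]
  · simp [Bb, Cb, vb]
    linarith
  · have hx2 : x 2 = Real.sqrt 2 * (x 2 / Real.sqrt 2) := by field_simp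
    simp [Bb, Cb, vb]
    rw [hx2]
    have : x 2 / Real.sqrt 2 = (α + β) * RR n i + x 0 * wz n i := by linarith
    rw [this]; ring

theorem mem_upper (n i : ℕ) (hn : 0 < n) (x : E3)
    (h1 : tt n i * ((1 - x 2 / Real.sqrt 2) - x 1 * wz n i) ≤ -x 0 - x 1 * wy n i)
    (h2 : -x 0 - x 1 * wy n i ≤ tt n (i + 1) * ((1 - x 2 / Real.sqrt 2) - x 1 * wz n i))
    (h3 : (1 - x 2 / Real.sqrt 2) - x 1 * wz n i ≤ RR n i) :
    ∃ b ∈ convexHull ℝ {proj (‖vt n i‖⁻¹ • vt n i) At, proj (‖vt n i‖⁻¹ • vt n i) (Bt n i),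
      proj (‖vt n i‖⁻¹ • vt n i) (Ct n i)}, ∃ t : ℝ, x = b + t • (‖vt n i‖⁻¹ • vt n i) := by
  have hs : Real.sqrt 2 ≠ 0 := by positivity
  have hnR : (0 : ℝ) < n := by exact_mod_cast hn
  obtain ⟨α, β, hα, hβ, hαβ, e1, e2⟩ := weights (h := 1 / n) (by rw [tt_diff]; ring)
    (by positivity) (RR_pos n i) h1 h2 h3
  refine mem_cyl (norm_vt_pos n i) hα hβ hαβ (τ := x 1) ?_
  ext k
  fin_cases k
  · simp [Bt, Ct, At, vt]
    linarith
  · simp [Bt, Ct, At, vt]
  · have hx2 : x 2 = Real.sqrt 2 * (x 2 / Real.sqrt 2) := by field_simp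
    simp [Bt, Ct, At, vt]
    rw [hx2]
    have : x 2 / Real.sqrt 2 = 1 - ((α + β) * RR n i + x 1 * wz n i) := by linarith
    rw [this]; ring

/-- The explicit finite cover of the standard tetrahedron by triangular cylinders. -/
theorem exists_cover :
    ∃ (m : ℕ) (u p q r : Fin m → E3), m + 1 ≤ 16000000 ∧
      (∀ i, ‖u i‖ = 1) ∧
      (∀ i, inner ℝ (p i) (u i) = 0 ∧ inner ℝ (q i) (u i) = 0 ∧ inner ℝ (r i) (u i) = 0) ∧
      K0 ⊆ ⋃ i, {x : E3 | ∃ b ∈ convexHull ℝ {p i, q i, r i}, ∃ t : ℝ, x = b + t • u i} ∧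
      ∑ i, (μHE[2] (convexHull ℝ ({p i, q i, r i} : Set E3))).toReal ≤
        Real.sqrt 2 * (1 / 2 - 6 / 10 ^ 10) := by
  obtain ⟨n, hn⟩ : ∃ n : ℕ, n = 1000000 := ⟨_, rfl⟩
  have hn0 : 0 < n := by omega
  let w : Fin n ⊕ Fin n → E3 := Sum.elim (fun i => vb n i) (fun i => vt n i)
  have hwpos : ∀ i, 0 < ‖w i‖ := by
    rintro (i | i)
    · exact norm_vb_pos n i
    · exact norm_vt_pos n i
  let A : Fin n ⊕ Fin n → E3 := Sum.elim (fun _ => 0) (fun _ => At)
  let B : Fin n ⊕ Fin n → E3 := Sum.elim (fun i => Bb n i) (fun i => Bt n i)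
  let C : Fin n ⊕ Fin n → E3 := Sum.elim (fun i => Cb n i) (fun i => Ct n i)
  let u : Fin n ⊕ Fin n → E3 := fun i => ‖w i‖⁻¹ • w i
  let e := (finSumFinEquiv (m := n) (n := n)).symm
  refine ⟨n + n, fun i => u (e i), fun i => proj (u (e i)) (A (e i)),
    fun i => proj (u (e i)) (B (e i)), fun i => proj (u (e i)) (C (e i)), by omega, ?_, ?_, ?_, ?_⟩
  · intro i
    exact norm_unit (hwpos _)
  · intro i
    exact ⟨inner_proj (norm_unit (hwpos _)) _, inner_proj (norm_unit (hwpos _)) _,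
      inner_proj (norm_unit (hwpos _)) _⟩
  · intro x hx
    obtain ⟨hx1, hx2⟩ := K0_bounds hx
    rw [Set.mem_iUnion]
    rcases cov_or n (by omega) (x 0) (x 1) (x 2 / Real.sqrt 2) hx1 hx2 with
      ⟨i, hi, h1, h2, h3⟩ | ⟨i, hi, h1, h2, h3⟩
    · refine ⟨e.symm (Sum.inl ⟨i, hi⟩), ?_⟩
      rw [Set.mem_ofPred_eq]
      simp only [Equiv.apply_symm_apply]
      exact mem_lower n i hn0 x h1 h2 h3
    · refine ⟨e.symm (Sum.inr ⟨i, hi⟩), ?_⟩
      rw [Set.mem_ofPred_eq]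
      simp only [Equiv.apply_symm_apply]
      exact mem_upper n i hn0 x h1 h2 h3
  · have hsum : ∑ i : Fin (n + n), (μHE[2] (convexHull ℝ ({proj (u (e i)) (A (e i)),
        proj (u (e i)) (B (e i)), proj (u (e i)) (C (e i))} : Set E3))).toReal =
        ∑ j : Fin n ⊕ Fin n, (μHE[2] (convexHull ℝ ({proj (u j) (A j),
        proj (u j) (B j), proj (u j) (C j)} : Set E3))).toReal :=
      Equiv.sum_comp e (fun j => (μHE[2] (convexHull ℝ ({proj (u j) (A j),
        proj (u j) (B j), proj (u j) (C j)} : Set E3))).toReal)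
    rw [hsum, Fintype.sum_sum_type]
    have hb : ∀ i : Fin n, (μHE[2] (convexHull ℝ ({proj (u (Sum.inl i)) (A (Sum.inl i)),
        proj (u (Sum.inl i)) (B (Sum.inl i)), proj (u (Sum.inl i)) (C (Sum.inl i))} : Set E3))).toReal
        = Real.sqrt 2 * pieceArea n i := fun i => by
      rw [← area_b n i]; exact area_cyl (norm_vb_pos n i)
    have ht : ∀ i : Fin n, (μHE[2] (convexHull ℝ ({proj (u (Sum.inr i)) (A (Sum.inr i)),
        proj (u (Sum.inr i)) (B (Sum.inr i)), proj (u (Sum.inr i)) (C (Sum.inr i))} : Set E3))).toReal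
        = Real.sqrt 2 * pieceArea n i := fun i => by
      rw [← area_t n i]; exact area_cyl (norm_vt_pos n i)
    simp only [hb, ht]
    rw [← Finset.mul_sum, Fin.sum_univ_eq_sum_range (fun i => pieceArea n i)]
    have hA := area_sum n (by omega)
    have hs : 0 ≤ Real.sqrt 2 := Real.sqrt_nonneg _
    calc Real.sqrt 2 * ∑ i ∈ Finset.range n, pieceArea n i +
          Real.sqrt 2 * ∑ i ∈ Finset.range n, pieceArea n i
        = Real.sqrt 2 * (2 * ∑ i ∈ Finset.range n, pieceArea n i) := by ring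
      _ ≤ _ := mul_le_mul_of_nonneg_left (by linarith) hs

end Crest.Agent.R211
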