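import Mathlib

set_option autoImplicit false

namespace Crest.Agent.R211

/-- The fixed small parameter. -/
noncomputable def ep : ℝ := 1 / 1000

/-- knots -/
noncomputable def tt (n i : ℕ) : ℝ := 2 * i / n - 1
/-- midpoints -/
noncomputable def cc (n i : ℕ) : ℝ := (2 * i + 1) / n - 1
/-- velocity, vertical (rescaled) component -/
noncomputable def wz (n i : ℕ) : ℝ := ep * cc n i
/-- velocity, horizontal component -/
noncomputable def wy (n i : ℕ) : ℝ := ep * ((cc n i) ^ 2 + 1 - 1 / (n : ℝ) ^ 2) / 2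
/-- the caps -/
noncomputable def RR (n i : ℕ) : ℝ :=
  1 / 2 + ep ^ 2 * ((cc n i) ^ 2 + (cc n i) ^ 4) / 4 + 3 * ep ^ 3 + ep / n

theorem discrete_ivt (G : ℕ → ℝ) (n : ℕ) (hn : 0 < n) (h0 : 0 ≤ G 0) (h1 : G n ≤ 0) :
    ∃ i < n, 0 ≤ G i ∧ G (i + 1) ≤ 0 := by
  by_contra hcon
  push Not at hcon
  have : ∀ i ≤ n, 0 ≤ G i := by
    intro i
    induction i with
    | zero => intro _; exact h0
    | succ k ih =>
      intro hk
      exact (hcon k (by omega) (ih (by omega))).le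
  have h2 := hcon (n - 1) (by omega) (this _ (by omega))
  rw [Nat.sub_add_cancel hn] at h2
  linarith

/-- The key inequality: the two families of caps cannot both miss a point. -/
theorem key_ineq (e η u v x y z : ℝ) (he : 0 < e) (he1 : e ≤ 1 / 4) (hη : 0 ≤ η) (hηe : η ≤ e / 2)
    (hu : |u| ≤ 1) (hv : |v| ≤ 1) (hx : |x| ≤ 1 - z) (hy : |y| ≤ z)
    (h1 : |y - u * z - x * e * (1 - u ^ 2) / 2| ≤ η)
    (h2 : |-x - v * (1 - z) - y * e * (1 - v ^ 2) / 2| ≤ η)
    (H1 : 1 / 2 + e ^ 2 * (u ^ 2 + u ^ 4) / 4 + 3 * e ^ 3 + e * η < z - x * (e * u))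
    (H2 : 1 / 2 + e ^ 2 * (v ^ 2 + v ^ 4) / 4 + 3 * e ^ 3 + e * η < (1 - z) - y * (e * v)) :
    False := by
  have hz0 : 0 ≤ z := le_trans (abs_nonneg _) hy
  have hz1 : 0 ≤ 1 - z := le_trans (abs_nonneg _) hx
  have hx1 : |x| ≤ 1 := by linarith
  have hy1 : |y| ≤ 1 := by linarith
  rw [abs_le] at hu hv hx1 hy1 h1 h2
  have hu2 : u ^ 2 ≤ 1 := by nlinarith
  have hv2 : v ^ 2 ≤ 1 := by nlinarith
  have hxu : |x * u| ≤ 1 := by
    rw [abs_mul]; exact mul_le_one₀ (abs_le.mpr hx1) (abs_nonneg _) (abs_le.mpr hu)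
  have hyv : |y * v| ≤ 1 := by
    rw [abs_mul]; exact mul_le_one₀ (abs_le.mpr hy1) (abs_nonneg _) (abs_le.mpr hv)
  rw [abs_le] at hxu hyv
  have hmul : ∀ {A : ℝ} {B : ℝ}, -B ≤ A → A ≤ B → -(e * B) ≤ e * A ∧ e * A ≤ e * B := by
    intro A B hA hB
    constructor
    · have := mul_le_mul_of_nonneg_left hA he.le; linarith
    · exact mul_le_mul_of_nonneg_left hB he.le
  have hprod : ∀ {A B C : ℝ}, 0 ≤ C → |A| ≤ 1 → |B| ≤ C → |A * B| ≤ C := by
    intro A B C hC hA hB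
    rw [abs_mul]
    calc |A| * |B| ≤ 1 * C := mul_le_mul hA hB (abs_nonneg _) zero_le_one
      _ = C := one_mul _
  have pu : 0 ≤ e ^ 2 * (u ^ 2 + u ^ 4) / 4 := by positivity
  have pv : 0 ≤ e ^ 2 * (v ^ 2 + v ^ 4) / 4 := by positivity
  have pm : 0 ≤ 3 * e ^ 3 + e * η := by positivity
  have hu' : |u| ≤ 1 := abs_le.mpr hu
  have hv' : |v| ≤ 1 := abs_le.mpr hv
  have hx' : |x| ≤ 1 := abs_le.mpr hx1
  have hy' : |y| ≤ 1 := abs_le.mpr hy1
  have hu3 : |1 - u ^ 2| ≤ 1 := abs_le.mpr ⟨by linarith, by linarith [sq_nonneg u]⟩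
  have hv3 : |1 - v ^ 2| ≤ 1 := abs_le.mpr ⟨by linarith, by linarith [sq_nonneg v]⟩
  -- step 1
  have hexu := hmul hxu.1 hxu.2
  have heyv := hmul hyv.1 hyv.2
  have hxi1 : -e ≤ z - 1 / 2 := by
    have : x * (e * u) = e * (x * u) := by ring
    linarith [hexu.1]
  have hxi2 : z - 1 / 2 ≤ e := by
    have : y * (e * v) = e * (y * v) := by ring
    linarith [heyv.1]
  have hxi : |z - 1 / 2| ≤ e := abs_le.mpr ⟨hxi1, hxi2⟩
  -- step 2
  have a1 := abs_le.mp (hprod he.le hu' hxi)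
  have a2 := abs_le.mp (hprod he.le hv' hxi)
  have a3 := abs_le.mp (hprod zero_le_one hx' hu3)
  have a4 := abs_le.mp (hprod zero_le_one hy' hv3)
  have a3' := hmul a3.1 a3.2
  have a4' := hmul a4.1 a4.2
  have b1 : |y - u / 2| ≤ 2 * e := by
    have : y - u / 2 = (y - u * z - x * e * (1 - u ^ 2) / 2) + u * (z - 1 / 2) +
      e * (x * (1 - u ^ 2)) / 2 := by ring
    rw [this, abs_le]; constructor <;> linarith [h1.1, h1.2, a1.1, a1.2, a3'.1, a3'.2]
  have b2 : |x + v / 2| ≤ 2 * e := by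
    have : x + v / 2 = -(-x - v * (1 - z) - y * e * (1 - v ^ 2) / 2) + v * (z - 1 / 2) -
      e * (y * (1 - v ^ 2)) / 2 := by ring
    rw [this, abs_le]; constructor <;> linarith [h2.1, h2.2, a2.1, a2.2, a4'.1, a4'.2]
  have h2e : (0 : ℝ) ≤ 2 * e := by linarith
  -- step 3
  have c1 := abs_le.mp (hprod h2e hu' b2)
  have c2 := abs_le.mp (hprod h2e hv' b1)
  have c3 := abs_le.mp (hprod h2e (hprod zero_le_one hv' hu3) b2)
  have c4 := abs_le.mp (hprod h2e (hprod zero_le_one hu' hv3) b1)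
  have c1' := hmul c1.1 c1.2
  have c2' := hmul c2.1 c2.2
  have c3' := hmul c3.1 c3.2
  have c4' := hmul c4.1 c4.2
  have d1 : -(2 * e ^ 2) ≤ z - 1 / 2 + e * u * v / 2 := by
    have e1 : x * (e * u) = e * (u * (x + v / 2)) - e * u * v / 2 := by ring
    have e2 : e * (2 * e) = 2 * e ^ 2 := by ring
    linarith [c1'.1]
  have d2 : z - 1 / 2 + e * u * v / 2 ≤ 2 * e ^ 2 := by
    have e1 : y * (e * v) = e * (v * (y - u / 2)) + e * u * v / 2 := by ring
    have e2 : e * (2 * e) = 2 * e ^ 2 := by ring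
    linarith [c2'.1]
  have huv : |u * v| ≤ 1 := hprod zero_le_one hu' hv'
  have d3 := abs_le.mp (hprod (C := 2 * e ^ 2) (by positivity) huv (abs_le.mpr ⟨d1, d2⟩))
  -- step 4
  have f1 := abs_le.mp (hprod hη hv' (abs_le.mpr h1))
  have f2 := abs_le.mp (hprod hη hu' (abs_le.mpr h2))
  have g1 : -(x * u) - y * v ≤ e * ((u ^ 2 + v ^ 2) / 4 + u ^ 2 * v ^ 2 / 2) + 6 * e ^ 2 + 2 * η := by
    have e2 : e * (2 * e) = 2 * e ^ 2 := by ring
    have key : -(x * u) - y * v = e * ((u ^ 2 + v ^ 2) / 4 + u ^ 2 * v ^ 2 / 2)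
        + (u * (-x - v * (1 - z) - y * e * (1 - v ^ 2) / 2))
        - (v * (y - u * z - x * e * (1 - u ^ 2) / 2))
        - 2 * ((u * v) * (z - 1 / 2 + e * u * v / 2))
        - e * ((v * (1 - u ^ 2)) * (x + v / 2)) / 2
        + e * ((u * (1 - v ^ 2)) * (y - u / 2)) / 2 := by
      ring
    rw [key]
    linarith [f1.1, f1.2, f2.1, f2.2, d3.1, d3.2, c3'.1, c3'.2, c4'.1, c4'.2]
  have g2 := mul_le_mul_of_nonneg_left g1 he.le
  have g3 : 0 ≤ e ^ 2 * (u ^ 2 - v ^ 2) ^ 2 / 4 := by positivity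
  have k1 : x * (e * u) + y * (e * v) = - (e * (-(x * u) - y * v)) := by ring
  have k2 : e * (e * ((u ^ 2 + v ^ 2) / 4 + u ^ 2 * v ^ 2 / 2) + 6 * e ^ 2 + 2 * η) =
    e ^ 2 * (u ^ 2 + u ^ 4) / 4 + e ^ 2 * (v ^ 2 + v ^ 4) / 4 + 6 * e ^ 3 + 2 * (e * η)
      - e ^ 2 * (u ^ 2 - v ^ 2) ^ 2 / 4 := by ring
  linarith

theorem tt_zero (n : ℕ) : tt n 0 = -1 := by simp [tt]

theorem tt_last (n : ℕ) (hn : 0 < n) : tt n n = 1 := by
  have : (n : ℝ) ≠ 0 := by positivity
  unfold tt; field_simp; norm_num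

theorem cc_eq_tt_add (n i : ℕ) : cc n i = tt n i + 1 / n := by
  unfold cc tt; ring

theorem tt_succ (n i : ℕ) : tt n (i + 1) = cc n i + 1 / n := by
  unfold cc tt; push_cast; ring

theorem abs_cc_le (n i : ℕ) (hi : i < n) : |cc n i| ≤ 1 := by
  have hn : (0 : ℝ) < n := by exact_mod_cast (by omega : 0 < n)
  have h1 : (0 : ℝ) ≤ (2 * i + 1) / n := by positivity
  have h2 : ((2 * i + 1) / n : ℝ) ≤ 2 := by
    rw [div_le_iff₀ hn]
    have : (i : ℝ) + 1 ≤ n := by exact_mod_cast hi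
    linarith
  unfold cc; rw [abs_le]; constructor <;> linarith

theorem abs_tt_le (n i : ℕ) (hi : i ≤ n) (hn0 : 0 < n) : |tt n i| ≤ 1 := by
  have hn : (0 : ℝ) < n := by exact_mod_cast hn0
  have h1 : (0 : ℝ) ≤ (2 * i) / n := by positivity
  have h2 : ((2 * i) / n : ℝ) ≤ 2 := by
    rw [div_le_iff₀ hn]
    have : (i : ℝ) ≤ n := by exact_mod_cast hi
    linarith
  unfold tt; rw [abs_le]; constructor <;> linarith

/-- The (sliding) knot functional. -/
noncomputable def GG (n : ℕ) (x y z : ℝ) (i : ℕ) : ℝ :=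
  y - tt n i * z - x * ep * (1 - tt n i ^ 2) / 2

theorem GG_lower (n i : ℕ) (x y z : ℝ) :
    (y - x * wy n i) - tt n i * (z - x * wz n i) = GG n x y z i := by
  have h : cc n i = tt n i + 1 / n := cc_eq_tt_add n i
  unfold GG wy wz; rw [h]; ring

theorem GG_upper (n i : ℕ) (x y z : ℝ) :
    (y - x * wy n i) - tt n (i + 1) * (z - x * wz n i) = GG n x y z (i + 1) := by
  have h : cc n i = tt n (i + 1) - 1 / n := by rw [tt_succ]; ring
  unfold GG wy wz; rw [h]; ring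

theorem GG_mid (n i : ℕ) (hi : i < n) (x y z : ℝ) (hx : |x| ≤ 1 - z) (hz : 0 ≤ z)
    (h0 : 0 ≤ GG n x y z i) (h1 : GG n x y z (i + 1) ≤ 0) :
    |y - cc n i * z - x * ep * (1 - cc n i ^ 2) / 2| ≤ (1 : ℝ) / n := by
  have hn0 : 0 < n := by omega
  have hn : (0 : ℝ) < n := by exact_mod_cast hn0
  have hh : (0 : ℝ) < 1 / n := by positivity
  have ht : tt n i = cc n i - 1 / n := by rw [cc_eq_tt_add]; ring
  have ht' : tt n (i + 1) = cc n i + 1 / n := tt_succ n i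
  have b0 := abs_tt_le n i hi.le hn0
  have b1 := abs_tt_le n (i + 1) hi hn0
  have bc := abs_cc_le n i hi
  unfold GG at h0 h1
  set c := cc n i with hc
  set h : ℝ := 1 / n with hhdef
  -- sum of |knot + mid| ≤ 2
  have s0 : |c + tt n i| ≤ 2 := (abs_add_le _ _).trans (by linarith)
  have s1 : |c + tt n (i + 1)| ≤ 2 := (abs_add_le _ _).trans (by linarith)
  have p0 : |x * (c + tt n i)| ≤ 2 * (1 - z) := by
    rw [abs_mul, mul_comm]
    exact mul_le_mul s0 hx (abs_nonneg _) (by norm_num)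
  have p1 : |x * (c + tt n (i + 1))| ≤ 2 * (1 - z) := by
    rw [abs_mul, mul_comm]
    exact mul_le_mul s1 hx (abs_nonneg _) (by norm_num)
  have p0' := abs_le.mp p0
  have p1' := abs_le.mp p1
  have hz1 : 0 ≤ 1 - z := le_trans (abs_nonneg _) hx
  have hep : ep = 1 / 1000 := rfl
  rw [abs_le]
  constructor
  · have e1 : y - c * z - x * ep * (1 - c ^ 2) / 2 =
        (y - tt n i * z - x * ep * (1 - tt n i ^ 2) / 2) - h * z +
          h * (ep / 2 * (x * (c + tt n i))) := by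
      have : tt n i = c - h := ht
      rw [this]; ring
    rw [e1]
    have e2 : h * (z - ep / 2 * (x * (c + tt n i))) ≤ h * 1 := by
      apply mul_le_mul_of_nonneg_left _ hh.le
      rw [hep]; linarith [p0'.1]
    linarith
  · have e1 : y - c * z - x * ep * (1 - c ^ 2) / 2 =
        (y - tt n (i + 1) * z - x * ep * (1 - tt n (i + 1) ^ 2) / 2) + h * z -
          h * (ep / 2 * (x * (c + tt n (i + 1)))) := by
      rw [ht']; ring
    rw [e1]
    have e2 : h * (z - ep / 2 * (x * (c + tt n (i + 1)))) ≤ h * 1 := by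
      apply mul_le_mul_of_nonneg_left _ hh.le
      rw [hep]; linarith [p1'.1]
    linarith

/-- The point `(x, y, z)` (rescaled coordinates) lies in one of the `n` lower cylinders. -/
def Cov (n : ℕ) (x y z : ℝ) : Prop :=
  ∃ i < n, tt n i * (z - x * wz n i) ≤ y - x * wy n i ∧
    y - x * wy n i ≤ tt n (i + 1) * (z - x * wz n i) ∧ z - x * wz n i ≤ RR n i

theorem cov_or (n : ℕ) (hn : 1000000 ≤ n) (x y z : ℝ) (hx : |x| ≤ 1 - z) (hy : |y| ≤ z) :
    Cov n x y z ∨ Cov n y (-x) (1 - z) := by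
  have hn0 : 0 < n := by omega
  have hnR : (1000000 : ℝ) ≤ n := by exact_mod_cast hn
  have hz0 : 0 ≤ z := le_trans (abs_nonneg _) hy
  have hz1 : 0 ≤ 1 - z := le_trans (abs_nonneg _) hx
  have hep : ep = 1 / 1000 := rfl
  have hx' := abs_le.mp hx
  have hy' := abs_le.mp hy
  obtain ⟨i, hi, hi0, hi1⟩ := discrete_ivt (GG n x y z) n hn0
    (by unfold GG; rw [tt_zero]; norm_num; linarith [hy'.1])
    (by unfold GG; rw [tt_last n hn0]; norm_num; linarith [hy'.2])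
  obtain ⟨j, hj, hj0, hj1⟩ := discrete_ivt (GG n y (-x) (1 - z)) n hn0
    (by unfold GG; rw [tt_zero]; norm_num; linarith [hx'.2])
    (by unfold GG; rw [tt_last n hn0]; norm_num; linarith [hx'.1])
  by_cases ci : z - x * wz n i ≤ RR n i
  · left
    refine ⟨i, hi, ?_, ?_, ci⟩
    · have := GG_lower n i x y z; linarith
    · have := GG_upper n i x y z; linarith
  by_cases cj : (1 - z) - y * wz n j ≤ RR n j
  · right
    refine ⟨j, hj, ?_, ?_, cj⟩
    · have := GG_lower n j y (-x) (1 - z); linarith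
    · have := GG_upper n j y (-x) (1 - z); linarith
  exfalso
  push Not at ci cj
  have m1 := GG_mid n i hi x y z hx hz0 hi0 hi1
  have m2 := GG_mid n j hj y (-x) (1 - z) (by rw [sub_sub_cancel]; exact hy) hz1 hj0 hj1
  have hh : (1 : ℝ) / n ≤ 1 / 1000000 := one_div_le_one_div_of_le (by norm_num) hnR
  refine key_ineq ep (1 / n) (cc n i) (cc n j) x y z (by rw [hep]; norm_num)
    (by rw [hep]; norm_num) (by positivity) (by rw [hep]; linarith)
    (abs_cc_le n i hi) (abs_cc_le n j hj) hx hy m1 m2 ?_ ?_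
  · unfold RR wz at ci
    have : ep * (1 / n) = ep / n := by ring
    rw [this]; exact ci
  · unfold RR wz at cj
    have : ep * (1 / n) = ep / n := by ring
    rw [this]; exact cj

end Crest.Agent.R211
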