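import Crest.Agent.R211.Area

/-! Open thickening of compact bases (owner: helper834). -/

set_option autoImplicit false
open MeasureTheory
open scoped ENNReal

namespace Crest.Agent.R211

/-- An orthonormal frame of the plane `u^⊥`. -/
theorem exists_onframe (u : E3) (hu : ‖u‖ = 1) :
    ∃ a b : E3, ‖a‖ = 1 ∧ ‖b‖ = 1 ∧ inner ℝ a b = 0 ∧ inner ℝ a u = 0 ∧ inner ℝ b u = 0 ∧
      ∀ y : E3, inner ℝ y u = 0 → y = inner ℝ a y • a + inner ℝ b y • b := by
  have hu0 : u ≠ 0 := by rintro rfl; simp at hu
  have : Fact (Module.finrank ℝ E3 = 2 + 1) := ⟨by simp⟩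
  have hfr : Module.finrank ℝ (ℝ ∙ u)ᗮ = 2 := Submodule.finrank_orthogonal_span_singleton hu0
  let B : OrthonormalBasis (Fin 2) ℝ (ℝ ∙ u)ᗮ := (stdOrthonormalBasis ℝ _).reindex (finCongr hfr)
  have hperp : ∀ i, inner ℝ ((B i : E3)) u = 0 := fun i => by
    have := (B i).2
    rwa [Submodule.mem_orthogonal_singleton_iff_inner_left] at this
  refine ⟨(B 0 : E3), (B 1 : E3), B.norm_eq_one 0, B.norm_eq_one 1, ?_, hperp 0, hperp 1, ?_⟩
  · have h : inner ℝ (B 0) (B 1) = (0 : ℝ) := B.orthonormal.2 (show (0 : Fin 2) ≠ 1 by decide)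
    rwa [Submodule.coe_inner] at h
  · intro y hy
    have hy' : y ∈ (ℝ ∙ u)ᗮ := by
      rw [Submodule.mem_orthogonal_singleton_iff_inner_left]; exact hy
    have hsum := B.sum_repr' ⟨y, hy'⟩
    rw [Fin.sum_univ_two] at hsum
    have h := congrArg (Subtype.val) hsum
    simp only [Submodule.coe_add, Submodule.coe_smul, Submodule.coe_inner] at h
    exact h.symm

/-- A compact base in `u^⊥` has bounded relatively open neighbourhoods of almost the same area. -/
theorem exists_open_base (u : E3) (hu : ‖u‖ = 1) (T : Set E3) (hT : IsCompact T)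
    (hTu : ∀ x ∈ T, inner ℝ x u = 0) (η : ℝ) (hη : 0 < η) :
    ∃ B : Set E3, T ⊆ B ∧ Bornology.IsBounded B ∧
      (∃ O : Set E3, IsOpen O ∧ B = O ∩ {x | inner ℝ x u = 0}) ∧
      (μHE[2] B).toReal ≤ (μHE[2] T).toReal + η := by
  obtain ⟨a, b, ha, hb, hab, hau, hbu, hframe⟩ := exists_onframe u hu
  have hg : gramArea a b = 1 := by rw [gramArea, ha, hb, hab]; norm_num
  have hba : inner ℝ b a = (0 : ℝ) := by rw [real_inner_comm]; exact hab
  set L : E2 → E3 := fun p => (0 : E3) + (p 0 • a + p 1 • b) with hL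
  set P : E3 → E2 := fun y => !₂[inner ℝ a y, inner ℝ b y] with hP
  have hPc : Continuous P := by
    rw [hP]
    apply (PiLp.continuous_toLp 2 _).comp
    apply continuous_pi
    intro i
    fin_cases i
    · simpa using continuous_const.inner continuous_id
    · simpa using continuous_const.inner continuous_id
  have hLc : Continuous L := by
    rw [hL]
    have h0 : Continuous fun p : E2 => p 0 := by fun_prop
    have h1 : Continuous fun p : E2 => p 1 := by fun_prop
    exact continuous_const.add ((h0.smul continuous_const).add (h1.smul continuous_const))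
  have hLP : ∀ y : E3, inner ℝ y u = 0 → L (P y) = y := by
    intro y hy
    simp only [hL, hP, Matrix.cons_val_zero, Matrix.cons_val_one, zero_add]
    exact (hframe y hy).symm
  have hPL : ∀ p : E2, P (L p) = p := by
    intro p
    ext i
    fin_cases i
    · simp [hP, hL, inner_add_right, real_inner_smul_right, ha, hab]
    · simp [hP, hL, inner_add_right, real_inner_smul_right, hb, hba]
  have hLu : ∀ p : E2, inner ℝ (L p) u = 0 := by
    intro p
    simp [hL, inner_add_left, real_inner_smul_left, hau, hbu]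
  have hvol : ∀ S : Set E2, μHE[2] (L '' S) = volume S := by
    intro S
    rw [hL, muHE_image, hg]
    simp
  have hTimg : T = L '' (P '' T) := by
    rw [Set.image_image]
    ext y
    constructor
    · intro hy; exact ⟨y, hy, hLP y (hTu y hy)⟩
    · rintro ⟨z, hz, rfl⟩
      simpa only [hLP z (hTu z hz)] using hz
  have hT' : IsCompact (P '' T) := hT.image hPc
  have hfin : volume (P '' T) ≠ ⊤ := hT'.measure_lt_top.ne
  obtain ⟨U, hTU, hUo, hU⟩ := (P '' T).exists_isOpen_lt_add hfin
    (show ENNReal.ofReal η ≠ 0 by simpa using hη)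
  obtain ⟨R, hR⟩ := hT'.isBounded.subset_ball 0
  refine ⟨L '' (U ∩ Metric.ball 0 R), ?_, ?_, ⟨P ⁻¹' (U ∩ Metric.ball 0 R),
    (hUo.inter Metric.isOpen_ball).preimage hPc, ?_⟩, ?_⟩
  · conv_lhs => rw [hTimg]
    exact Set.image_mono (Set.subset_inter hTU hR)
  · have hK : IsCompact (L '' Metric.closedBall 0 R) := (isCompact_closedBall 0 R).image hLc
    exact hK.isBounded.subset (Set.image_mono (Set.inter_subset_right.trans Metric.ball_subset_closedBall))
  · ext y
    constructor
    · rintro ⟨p, hp, rfl⟩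
      exact ⟨by rw [Set.mem_preimage, hPL]; exact hp, hLu p⟩
    · rintro ⟨hy, hyu⟩
      exact ⟨P y, hy, hLP y hyu⟩
  · rw [hvol]
    conv_rhs => rw [hTimg, hvol]
    have h1 : volume (U ∩ Metric.ball 0 R) ≤ volume (P '' T) + ENNReal.ofReal η :=
      (measure_mono Set.inter_subset_left).trans hU.le
    have h2 := ENNReal.toReal_mono (ENNReal.add_ne_top.mpr ⟨hfin, ENNReal.ofReal_ne_top⟩) h1
    rwa [ENNReal.toReal_add hfin ENNReal.ofReal_ne_top, ENNReal.toReal_ofReal hη.le] at h2

end Crest.Agent.R211
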