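import Crest.Agent.R211.K0

/-! Projection lemma: every orthogonal projection of `K0` has area at least `√2`, with equality
along the first coordinate axis; projections of bounded sets have finite area. -/

set_option autoImplicit false
open MeasureTheory
open scoped ENNReal

namespace Crest.Agent.R211

theorem proj_image_def (v : E3) (S : Set E3) :
    (fun y => y - inner ℝ y v • v) '' S = proj v '' S := rfl

/-! ### Triangles and pairs of triangles -/

/-- A projected triangle has area `|det| / 2`. -/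
theorem muHE_proj_triangle {u : E3} (hu : ‖u‖ = 1) (p q r : E3) :
    μHE[2] (proj u '' convexHull ℝ {p, q, r}) =
      ENNReal.ofReal (|det3 (q - p) (r - p) u| / 2) := by
  rw [image_proj_convexHull, muHE_triangle, ← map_sub, ← map_sub, gramArea_proj hu]

theorem volume_line : volume {x : E2 | x 1 = 0} = 0 := by
  have h : {x : E2 | x 1 = 0} = (fun p : E2 => ((p 0, p 1) : ℝ × ℝ)) ⁻¹' (Set.univ ×ˢ {0}) := by
    ext p; simp
  rw [h, volume_E2_preimage _ (MeasurableSet.univ.prod (measurableSet_singleton 0)),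
    Measure.volume_eq_prod, Measure.prod_prod]
  simp

theorem volume_stdTri_pos : volume (stdTri ∩ {x : E2 | 0 < x 1}) = ENNReal.ofReal (1 / 2) := by
  have h : stdTri ∩ {x : E2 | 0 < x 1} = stdTri \ {x : E2 | x 1 = 0} := by
    ext x
    simp only [stdTri, Set.mem_inter_iff, Set.mem_ofPred_eq, Set.mem_sdiff]
    constructor
    · rintro ⟨h, h1⟩; exact ⟨h, h1.ne'⟩
    · rintro ⟨h, h1⟩; exact ⟨h, lt_of_le_of_ne h.2.1 (Ne.symm h1)⟩
  rw [h, measure_sdiff_null volume_line, volume_stdTri]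

/-- The projected triangle `p q r` without the side `p q`. -/
def openTri (u p q r : E3) : Set E3 :=
  (fun x : E2 => proj u p + (x 0 • (proj u q - proj u p) + x 1 • (proj u r - proj u p))) ''
    (stdTri ∩ {x : E2 | 0 < x 1})

theorem muHE_openTri {u : E3} (hu : ‖u‖ = 1) (p q r : E3) :
    μHE[2] (openTri u p q r) = ENNReal.ofReal (|det3 (q - p) (r - p) u| / 2) := by
  rw [openTri, muHE_image, volume_stdTri_pos, ← map_sub, ← map_sub, gramArea_proj hu,
    ← ENNReal.ofReal_mul (abs_nonneg _)]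
  congr 1; ring

theorem openTri_subset (u p q r : E3) :
    openTri u p q r ⊆ proj u '' convexHull ℝ {p, q, r} := by
  rw [image_proj_convexHull, convexHull_triple_eq_image]
  exact Set.image_mono Set.inter_subset_left

/-- the affine functional whose zero set is the projected line `p q` -/
def side (u p q x : E3) : ℝ := det3 (q - p) (x - p) u

theorem det3_proj (u a b : E3) : det3 a (proj u b) u = det3 a b u := by
  simp only [det3, proj_apply, PiLp.sub_apply, PiLp.smul_apply, smul_eq_mul]; ring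

theorem side_openTri {u p q r : E3} {y : E3} (hy : y ∈ openTri u p q r) :
    ∃ c : ℝ, 0 < c ∧ side u p q y = c * det3 (q - p) (r - p) u := by
  obtain ⟨x, ⟨-, hx⟩, rfl⟩ := hy
  refine ⟨x 1, hx, ?_⟩
  simp only [side, det3, proj_apply, PiLp.sub_apply, PiLp.smul_apply, PiLp.add_apply, smul_eq_mul]
  ring

theorem continuous_side (u p q : E3) : Continuous (side u p q) := by
  unfold side det3
  fun_prop

/-- The projection of a convex set containing four points `p q r s` has area at least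
`|det (q - p) (s - r) u| / 2`. -/
theorem le_muHE_proj_of_four {u : E3} (hu : ‖u‖ = 1) {K : Set E3} {p q r s : E3}
    (h1 : convexHull ℝ {p, q, r} ⊆ K) (h2 : convexHull ℝ {p, q, s} ⊆ K) :
    ENNReal.ofReal (|det3 (q - p) (s - r) u| / 2) ≤ μHE[2] (proj u '' K) := by
  have hA : ENNReal.ofReal (|det3 (q - p) (r - p) u| / 2) ≤ μHE[2] (proj u '' K) := by
    rw [← muHE_proj_triangle hu]; exact measure_mono (Set.image_mono h1)
  have hB : ENNReal.ofReal (|det3 (q - p) (s - p) u| / 2) ≤ μHE[2] (proj u '' K) := by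
    rw [← muHE_proj_triangle hu]; exact measure_mono (Set.image_mono h2)
  have hdet : det3 (q - p) (s - r) u = det3 (q - p) (s - p) u - det3 (q - p) (r - p) u := by
    simp only [det3, PiLp.sub_apply]; ring
  set D1 := det3 (q - p) (r - p) u with hD1
  set D2 := det3 (q - p) (s - p) u with hD2
  rw [hdet]
  by_cases hs : 0 ≤ D1 * D2
  · -- same side
    rcases le_total |D1| |D2| with h | h
    · refine le_trans (ENNReal.ofReal_le_ofReal ?_) hB
      have : |D2 - D1| ≤ |D2| := by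
        rw [← sq_le_sq]
        have := sq_le_sq.mpr h
        nlinarith
      linarith
    · refine le_trans (ENNReal.ofReal_le_ofReal ?_) hA
      have : |D2 - D1| ≤ |D1| := by
        rw [← sq_le_sq]
        have := sq_le_sq.mpr h
        nlinarith
      linarith
  · push Not at hs
    -- opposite sides
    have hsum : |D2 - D1| = |D1| + |D2| := by
      rcases lt_or_ge 0 D1 with h | h
      · have h2 : D2 < 0 := by
          by_contra hc; push Not at hc
          exact absurd hs (not_lt.mpr (mul_nonneg h.le hc))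
        rw [abs_of_pos h, abs_of_neg h2, abs_of_neg (by linarith)]; ring
      · have h1' : D1 < 0 := lt_of_le_of_ne h (by rintro h0; rw [h0, zero_mul] at hs; exact lt_irrefl _ hs)
        have h2 : 0 < D2 := by
          by_contra hc; push Not at hc
          exact absurd hs (not_lt.mpr (mul_nonneg_of_nonpos_of_nonpos h1'.le hc))
        rw [abs_of_neg h1', abs_of_pos h2, abs_of_pos (by linarith)]; ring
    set H : Set E3 := {x | 0 < side u p q x * D1} with hH
    have hHo : IsOpen H := isOpen_lt continuous_const ((continuous_side u p q).mul continuous_const)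
    have hT1 : openTri u p q r ⊆ (proj u '' K) ∩ H := by
      intro y hy
      refine ⟨Set.image_mono h1 (openTri_subset _ _ _ _ hy), ?_⟩
      obtain ⟨c, hc, hy'⟩ := side_openTri hy
      have hD1ne : D1 ≠ 0 := by rintro h0; rw [h0, zero_mul] at hs; exact lt_irrefl _ hs
      show 0 < side u p q y * D1
      rw [hy', ← hD1, mul_assoc]
      exact mul_pos hc (mul_self_pos.mpr hD1ne)
    have hT2 : openTri u p q s ⊆ (proj u '' K) \ H := by
      intro y hy
      refine ⟨Set.image_mono h2 (openTri_subset _ _ _ _ hy), ?_⟩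
      obtain ⟨c, hc, hy'⟩ := side_openTri hy
      show ¬ (0 < side u p q y * D1)
      rw [hy', ← hD2, mul_assoc, mul_comm D2 D1]
      exact not_lt.mpr (mul_nonpos_of_nonneg_of_nonpos hc.le hs.le)
    calc ENNReal.ofReal (|D2 - D1| / 2)
        = ENNReal.ofReal (|D1| / 2) + ENNReal.ofReal (|D2| / 2) := by
          rw [hsum, add_div, ENNReal.ofReal_add (by positivity) (by positivity)]
      _ = μHE[2] (openTri u p q r) + μHE[2] (openTri u p q s) := by
          rw [muHE_openTri hu, muHE_openTri hu]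
      _ ≤ μHE[2] ((proj u '' K) ∩ H) + μHE[2] ((proj u '' K) \ H) :=
          add_le_add (measure_mono hT1) (measure_mono hT2)
      _ = μHE[2] (proj u '' K) := measure_inter_add_sdiff _ hHo.measurableSet

/-! ### Lower bound for the standard K0hedron -/

theorem real_lower_bound {x y z A : ℝ} (h : x ^ 2 + y ^ 2 + z ^ 2 = 1)
    (hz : 2 * |z| ≤ A) (hp : Real.sqrt 2 * |x + y| ≤ A) (hm : Real.sqrt 2 * |x - y| ≤ A)
    (h1 : Real.sqrt 2 * |x| + |z| ≤ A) (h2 : Real.sqrt 2 * |y| + |z| ≤ A) :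
    Real.sqrt 2 ≤ A := by
  have hs : Real.sqrt 2 ^ 2 = 2 := Real.sq_sqrt (by norm_num)
  have hs0 : 0 < Real.sqrt 2 := by positivity
  set c := Real.sqrt 2 with hc
  have hA : 0 ≤ A := le_trans (by positivity) hz
  have key : 2 ≤ A ^ 2 := by
    have e1 : (x + y) ^ 2 + (x - y) ^ 2 + 2 * z ^ 2 = 2 := by nlinarith
    have hP := abs_nonneg (x + y)
    have hM := abs_nonneg (x - y)
    have hZ := abs_nonneg z
    have q1 : (x + y) ^ 2 = |x + y| * |x + y| := by rw [← sq, sq_abs]
    have q2 : (x - y) ^ 2 = |x - y| * |x - y| := by rw [← sq, sq_abs]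
    have q3 : z ^ 2 = |z| * |z| := by rw [← sq, sq_abs]
    -- |x+y| + |x-y| = 2 max |x| |y|
    have hmax : c * (|x + y| + |x - y|) + 2 * |z| ≤ 2 * A := by
      have : |x + y| + |x - y| = 2 * |x| ∨ |x + y| + |x - y| = 2 * |y| := by
        rcases abs_cases (x + y) with ⟨a1, b1⟩ | ⟨a1, b1⟩ <;>
        rcases abs_cases (x - y) with ⟨a2, b2⟩ | ⟨a2, b2⟩ <;>
        rcases abs_cases x with ⟨a3, b3⟩ | ⟨a3, b3⟩ <;>
        rcases abs_cases y with ⟨a4, b4⟩ | ⟨a4, b4⟩ <;>
        rw [a1, a2, a3, a4] <;>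
        first
          | (left; linarith)
          | (right; linarith)
      rcases this with h | h <;> rw [h] <;> nlinarith
    -- multiply
    have m1 : c * |x + y| * |x + y| ≤ A * |x + y| := mul_le_mul_of_nonneg_right hp hP
    have m2 : c * |x - y| * |x - y| ≤ A * |x - y| := mul_le_mul_of_nonneg_right hm hM
    have m3 : 2 * |z| * |z| ≤ A * |z| := mul_le_mul_of_nonneg_right hz hZ
    -- c * 2 = c * (...) ≤ A(|x+y| + |x-y|) + c A |z|
    have t1 : c * 2 ≤ A * (|x + y| + |x - y|) + c * (A * |z|) := by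
      have e1' : |x + y| * |x + y| + |x - y| * |x - y| + 2 * (|z| * |z|) = 2 := by
        rw [← q1, ← q2, ← q3]; exact e1
      calc c * 2 = c * |x + y| * |x + y| + c * |x - y| * |x - y| + c * (2 * |z| * |z|) := by
            linear_combination (-c) * e1'
        _ ≤ A * |x + y| + A * |x - y| + c * (A * |z|) := by
            have := mul_le_mul_of_nonneg_left m3 hs0.le
            linarith
        _ = _ := by ring
    have t2 : c * (c * 2) ≤ A * (c * (|x + y| + |x - y|) + 2 * |z|) := by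
      have := mul_le_mul_of_nonneg_left t1 hs0.le
      have e2 : c * (A * (|x + y| + |x - y|) + c * (A * |z|)) =
          A * (c * (|x + y| + |x - y|)) + c ^ 2 * (A * |z|) := by ring
      rw [e2, hs] at this
      linarith
    have t3 : A * (c * (|x + y| + |x - y|) + 2 * |z|) ≤ A * (2 * A) :=
      mul_le_mul_of_nonneg_left hmax hA
    nlinarith
  nlinarith [abs_nonneg z]

theorem subset_K0 {S : Set E3}
    (hS : S ⊆ {!₂[1, 0, 0], !₂[-1, 0, 0], !₂[0, 1, Real.sqrt 2], !₂[0, -1, Real.sqrt 2]}) :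
    convexHull ℝ S ⊆ K0 := convexHull_mono hS

/-- Every orthogonal projection of the standard K0hedron has area at least `√2`. -/
theorem sqrt2_le_muHE_proj {v : E3} (hv : ‖v‖ = 1) :
    ENNReal.ofReal (Real.sqrt 2) ≤ μHE[2] (proj v '' K0) := by
  have hs : Real.sqrt 2 * Real.sqrt 2 = 2 := Real.mul_self_sqrt (by norm_num)
  have hs0 : 0 < Real.sqrt 2 := by positivity
  have hv2 : v 0 ^ 2 + v 1 ^ 2 + v 2 ^ 2 = 1 := by rw [← norm_sq_E3, hv]; norm_num
  by_cases htop : μHE[2] (proj v '' K0) = ⊤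
  · rw [htop]; exact le_top
  set A := (μHE[2] (proj v '' K0)).toReal with hA
  have hAeq : μHE[2] (proj v '' K0) = ENNReal.ofReal A := (ENNReal.ofReal_toReal htop).symm
  have hA0 : 0 ≤ A := ENNReal.toReal_nonneg
  have conv : ∀ c : ℝ, ENNReal.ofReal c ≤ μHE[2] (proj v '' K0) → c ≤ A := by
    intro c hc
    rw [hAeq] at hc
    exact (ENNReal.ofReal_le_ofReal_iff hA0).mp hc
  rw [hAeq]
  apply ENNReal.ofReal_le_ofReal
  -- opposite edges
  have d1 := conv _ (le_muHE_proj_of_four (K := K0) hv (p := !₂[1, 0, 0]) (q := !₂[-1, 0, 0])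
    (r := !₂[0, 1, Real.sqrt 2]) (s := !₂[0, -1, Real.sqrt 2])
    (subset_K0 (by intro x hx; simp only [Set.mem_insert_iff, Set.mem_singleton_iff] at hx ⊢; tauto))
    (subset_K0 (by intro x hx; simp only [Set.mem_insert_iff, Set.mem_singleton_iff] at hx ⊢; tauto)))
  have d2 := conv _ (le_muHE_proj_of_four (K := K0) hv (p := !₂[1, 0, 0])
    (q := !₂[0, 1, Real.sqrt 2]) (r := !₂[-1, 0, 0]) (s := !₂[0, -1, Real.sqrt 2])
    (subset_K0 (by intro x hx; simp only [Set.mem_insert_iff, Set.mem_singleton_iff] at hx ⊢; tauto))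
    (subset_K0 (by intro x hx; simp only [Set.mem_insert_iff, Set.mem_singleton_iff] at hx ⊢; tauto)))
  have d3 := conv _ (le_muHE_proj_of_four (K := K0) hv (p := !₂[1, 0, 0])
    (q := !₂[0, -1, Real.sqrt 2]) (r := !₂[-1, 0, 0]) (s := !₂[0, 1, Real.sqrt 2])
    (subset_K0 (by intro x hx; simp only [Set.mem_insert_iff, Set.mem_singleton_iff] at hx ⊢; tauto))
    (subset_K0 (by intro x hx; simp only [Set.mem_insert_iff, Set.mem_singleton_iff] at hx ⊢; tauto)))
  have face : ∀ p q r : E3, convexHull ℝ {p, q, r} ⊆ K0 → |det3 (q - p) (r - p) v| / 2 ≤ A := by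
    intro p q r h
    apply conv
    rw [← muHE_proj_triangle hv]
    exact measure_mono (Set.image_mono h)
  have f1 := face !₂[1, 0, 0] !₂[-1, 0, 0] !₂[0, 1, Real.sqrt 2]
    (subset_K0 (by intro x hx; simp only [Set.mem_insert_iff, Set.mem_singleton_iff] at hx ⊢; tauto))
  have f2 := face !₂[1, 0, 0] !₂[-1, 0, 0] !₂[0, -1, Real.sqrt 2]
    (subset_K0 (by intro x hx; simp only [Set.mem_insert_iff, Set.mem_singleton_iff] at hx ⊢; tauto))
  have f3 := face !₂[1, 0, 0] !₂[0, 1, Real.sqrt 2] !₂[0, -1, Real.sqrt 2]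
    (subset_K0 (by intro x hx; simp only [Set.mem_insert_iff, Set.mem_singleton_iff] at hx ⊢; tauto))
  have f4 := face !₂[-1, 0, 0] !₂[0, 1, Real.sqrt 2] !₂[0, -1, Real.sqrt 2]
    (subset_K0 (by intro x hx; simp only [Set.mem_insert_iff, Set.mem_singleton_iff] at hx ⊢; tauto))
  simp only [det3, PiLp.sub_apply, Matrix.cons_val_zero, Matrix.cons_val_one, Matrix.cons_val] at d1 d2 d3 f1 f2 f3 f4
  have ex : ∀ E : ℝ, |E| / 2 ≤ A → E ≤ 2 * A ∧ -(2 * A) ≤ E := by
    intro E hE
    have h2 : |E| ≤ 2 * A := by linarith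
    exact ⟨(abs_le.mp h2).2, (abs_le.mp h2).1⟩
  obtain ⟨d1a, d1b⟩ := ex _ d1
  obtain ⟨d2a, d2b⟩ := ex _ d2
  obtain ⟨d3a, d3b⟩ := ex _ d3
  obtain ⟨f1a, f1b⟩ := ex _ f1
  obtain ⟨f2a, f2b⟩ := ex _ f2
  obtain ⟨f3a, f3b⟩ := ex _ f3
  obtain ⟨f4a, f4b⟩ := ex _ f4
  refine real_lower_bound hv2 ?_ ?_ ?_ ?_ ?_
  · rcases abs_cases (v 2) with ⟨a1, -⟩ | ⟨a1, -⟩ <;> rw [a1] <;> linarith
  · rcases abs_cases (v 0 + v 1) with ⟨a1, -⟩ | ⟨a1, -⟩ <;> rw [a1] <;> linarith
  · rcases abs_cases (v 0 - v 1) with ⟨a1, -⟩ | ⟨a1, -⟩ <;> rw [a1] <;> linarith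
  · rcases abs_cases (v 0) with ⟨a1, -⟩ | ⟨a1, -⟩ <;> rcases abs_cases (v 2) with ⟨a2, -⟩ | ⟨a2, -⟩ <;>
      rw [a1, a2] <;> linarith
  · rcases abs_cases (v 1) with ⟨a1, -⟩ | ⟨a1, -⟩ <;> rcases abs_cases (v 2) with ⟨a2, -⟩ | ⟨a2, -⟩ <;>
      rw [a1, a2] <;> linarith

/-- The projection along the first coordinate axis has area exactly `√2`. -/
theorem muHE_proj_axis :
    μHE[2] (proj !₂[1, 0, 0] '' K0) = ENNReal.ofReal (Real.sqrt 2) := by
  have himg : proj !₂[1, 0, 0] '' K0 =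
      convexHull ℝ {(0 : E3), !₂[0, 1, Real.sqrt 2], !₂[0, -1, Real.sqrt 2]} := by
    rw [(proj !₂[1, 0, 0]).image_convexHull, Set.image_insert_eq, Set.image_insert_eq,
      Set.image_pair]
    have h1 : proj !₂[1, 0, 0] !₂[1, 0, 0] = 0 := by
      rw [proj_apply, inner_E3]; ext i; fin_cases i <;> simp
    have h2 : proj !₂[1, 0, 0] !₂[-1, 0, 0] = 0 := by
      rw [proj_apply, inner_E3]; ext i; fin_cases i <;> simp
    have h3 : proj !₂[1, 0, 0] !₂[0, 1, Real.sqrt 2] = !₂[0, 1, Real.sqrt 2] := by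
      rw [proj_apply, inner_E3]; ext i; fin_cases i <;> simp
    have h4 : proj !₂[1, 0, 0] !₂[0, -1, Real.sqrt 2] = !₂[0, -1, Real.sqrt 2] := by
      rw [proj_apply, inner_E3]; ext i; fin_cases i <;> simp
    rw [h1, h2, h3, h4, Set.insert_eq_of_mem (Set.mem_insert _ _)]
  rw [himg, muHE_triangle, sub_zero, sub_zero]
  congr 1
  have hs : Real.sqrt 2 * Real.sqrt 2 = 2 := Real.mul_self_sqrt (by norm_num)
  have hs2 : Real.sqrt 2 ^ 2 = 2 := Real.sq_sqrt (by norm_num)
  rw [gramArea, norm_sq_E3, norm_sq_E3, inner_E3]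
  simp only [Matrix.cons_val_zero, Matrix.cons_val_one, Matrix.cons_val]
  rw [hs2, hs, show ((0 : ℝ) ^ 2 + 1 ^ 2 + 2) * (0 ^ 2 + (-1) ^ 2 + 2) - (0 * 0 + 1 * -1 + 2) ^ 2 =
    (2 * Real.sqrt 2) ^ 2 by rw [mul_pow, hs2]; norm_num]
  rw [Real.sqrt_sq (by positivity)]
  ring

/-! ### Finiteness -/

/-- A vector orthogonal to the unit vector `v` is a combination of two fixed orthonormal vectors. -/
theorem exists_frame (v : E3) (hv : ‖v‖ = 1) :
    ∃ a b : E3, ∀ y : E3, inner ℝ y v = 0 → y = inner ℝ a y • a + inner ℝ b y • b ∧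
      |inner ℝ a y| ≤ ‖y‖ ∧ |inner ℝ b y| ≤ ‖y‖ := by
  have hv0 : v ≠ 0 := by rintro rfl; simp at hv
  have : Fact (Module.finrank ℝ E3 = 2 + 1) := ⟨by simp⟩
  have hfr : Module.finrank ℝ (ℝ ∙ v)ᗮ = 2 := Submodule.finrank_orthogonal_span_singleton hv0
  let B : OrthonormalBasis (Fin 2) ℝ (ℝ ∙ v)ᗮ := (stdOrthonormalBasis ℝ _).reindex (finCongr hfr)
  refine ⟨(B 0 : E3), (B 1 : E3), fun y hy => ?_⟩
  have hy' : y ∈ (ℝ ∙ v)ᗮ := by
    rw [Submodule.mem_orthogonal_singleton_iff_inner_left]; exact hy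
  have hsum := B.sum_repr' ⟨y, hy'⟩
  rw [Fin.sum_univ_two] at hsum
  have hb : ∀ i : Fin 2, ‖(B i : E3)‖ = 1 := fun i => B.norm_eq_one i
  refine ⟨?_, ?_, ?_⟩
  · have h := congrArg (Subtype.val) hsum
    simp only [Submodule.coe_add, Submodule.coe_smul, Submodule.coe_inner] at h
    exact h.symm
  · have := abs_real_inner_le_norm (B 0 : E3) y
    rwa [hb 0, one_mul] at this
  · have := abs_real_inner_le_norm (B 1 : E3) y
    rwa [hb 1, one_mul] at this

/-- Any bounded set has finite projected area. -/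
theorem muHE_proj_ne_top (S : Set E3) (hS : Bornology.IsBounded S) (v : E3) (hv : ‖v‖ = 1) :
    μHE[2] ((fun y => y - inner ℝ y v • v) '' S) ≠ ⊤ := by
  rw [proj_image_def]
  obtain ⟨a, b, hab⟩ := exists_frame v hv
  have hb : Bornology.IsBounded (proj v '' S) := by
    have hc : LipschitzWith _ (proj v).toContinuousLinearMap := (proj v).toContinuousLinearMap.lipschitz
    exact hc.isBounded_image hS
  obtain ⟨R, hR⟩ := hb.subset_closedBall 0
  have hsub : proj v '' S ⊆ (fun p : E2 => (0 : E3) + (p 0 • a + p 1 • b)) ''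
      ((fun p : E2 => ((p 0, p 1) : ℝ × ℝ)) ⁻¹' (Set.Icc (-R) R ×ˢ Set.Icc (-R) R)) := by
    intro y hy
    have hy0 : inner ℝ y v = 0 := by
      obtain ⟨x, -, rfl⟩ := hy; exact inner_proj hv x
    obtain ⟨h1, h2, h3⟩ := hab y hy0
    have hyR : ‖y‖ ≤ R := by simpa using hR hy
    refine ⟨!₂[inner ℝ a y, inner ℝ b y], ?_, ?_⟩
    · simp only [Set.mem_preimage, Set.mem_prod, Set.mem_Icc, Matrix.cons_val_zero,
        Matrix.cons_val_one]
      exact ⟨abs_le.mp (h2.trans hyR), abs_le.mp (h3.trans hyR)⟩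
    · simp only [Matrix.cons_val_zero, Matrix.cons_val_one, zero_add]
      exact h1.symm
  refine ne_top_of_le_ne_top ?_ (measure_mono hsub)
  rw [muHE_image, volume_E2_preimage _ (measurableSet_Icc.prod measurableSet_Icc),
    Measure.volume_eq_prod, Measure.prod_prod, Real.volume_Icc]
  exact ENNReal.mul_ne_top ENNReal.ofReal_ne_top (ENNReal.mul_ne_top ENNReal.ofReal_ne_top ENNReal.ofReal_ne_top)

/-- Every orthogonal projection of `K0` has area at least `√2`. -/
theorem muHE_proj_K0_ge (v : E3) (hv : ‖v‖ = 1) :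
    ENNReal.ofReal (Real.sqrt 2) ≤ μHE[2] ((fun y => y - inner ℝ y v • v) '' K0) :=
  sqrt2_le_muHE_proj hv

/-- Equality is attained. -/
theorem muHE_proj_K0_eq :
    ∃ v : E3, ‖v‖ = 1 ∧
      μHE[2] ((fun y => y - inner ℝ y v • v) '' K0) = ENNReal.ofReal (Real.sqrt 2) := by
  refine ⟨!₂[1, 0, 0], ?_, muHE_proj_axis⟩
  rw [← Real.sqrt_sq (norm_nonneg _), norm_sq_E3]
  simp

theorem isBounded_K0 : Bornology.IsBounded K0 := by
  apply (isBounded_convexHull).mpr
  exact (Set.toFinite _).isBounded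

/-- Real-valued version of the lower bound. -/
theorem sqrt2_le_toReal_muHE_proj_K0 (v : E3) (hv : ‖v‖ = 1) :
    Real.sqrt 2 ≤ (μHE[2] ((fun y => y - inner ℝ y v • v) '' K0)).toReal := by
  have h := muHE_proj_K0_ge v hv
  have htop := muHE_proj_ne_top K0 isBounded_K0 v hv
  rwa [ENNReal.ofReal_le_iff_le_toReal htop] at h

end Crest.Agent.R211
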