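import Mathlib

set_option autoImplicit false
open MeasureTheory Set

namespace Crest.Agent.R211.Ruled

abbrev E2 := EuclideanSpace ℝ (Fin 2)

/-- cost density -/
noncomputable def Jf (h : ℝ) (v : E2) : ℝ := 1 / Real.sqrt (1 + (v 0)^2 + h^2 * (v 1)^2)

/-- The covering predicate. -/
def Cov (V : E2 → E2) (L h : ℝ) (S : Set E2) (m : ℝ) : Prop :=
  ∃ (k : ℕ) (c a b g : Fin k → E2),
      (∀ i, a i ≠ 0 ∧ ‖b i‖ = ‖a i‖ ∧ inner ℝ (a i) (b i) = 0) ∧
      {z : ℝ × E2 | ∃ p ∈ S, abs z.1 ≤ L ∧ z.2 = p + z.1 • V p} ⊆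
        ⋃ i, {z : ℝ × E2 | ∃ x ∈ Set.Icc (0 : ℝ) 1, ∃ y ∈ Set.Icc (0 : ℝ) 1,
          z.2 = c i + x • a i + y • b i + z.1 • g i} ∧
      ∑ i, ‖a i‖ ^ 2 / Real.sqrt (1 + (g i 0) ^ 2 + h ^ 2 * (g i 1) ^ 2) ≤ m

lemma Cov.of_fintype {V : E2 → E2} {L h : ℝ} {S : Set E2} {m : ℝ} {ι : Type*} [Fintype ι]
    (c a b g : ι → E2) (h1 : ∀ i, a i ≠ 0 ∧ ‖b i‖ = ‖a i‖ ∧ inner ℝ (a i) (b i) = 0)
    (h2 : ∀ p ∈ S, ∀ s : ℝ, |s| ≤ L → ∃ i, ∃ x ∈ Set.Icc (0 : ℝ) 1, ∃ y ∈ Set.Icc (0 : ℝ) 1,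
      p + s • V p = c i + x • a i + y • b i + s • g i)
    (h3 : ∑ i, ‖a i‖ ^ 2 / Real.sqrt (1 + (g i 0) ^ 2 + h ^ 2 * (g i 1) ^ 2) ≤ m) :
    Cov V L h S m := by
  classical
  let e := Fintype.equivFin ι
  refine ⟨Fintype.card ι, fun i => c (e.symm i), fun i => a (e.symm i), fun i => b (e.symm i),
    fun i => g (e.symm i), fun i => h1 _, ?_, ?_⟩
  · rintro ⟨s, z⟩ ⟨p, hp, hs, hz⟩
    obtain ⟨i, x, hx, y, hy, hxy⟩ := h2 p hp s hs
    refine mem_iUnion.2 ⟨e i, x, hx, y, hy, ?_⟩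
    simp only [Equiv.symm_apply_apply]
    simp only at hz
    rw [hz, hxy]
  · refine le_trans (le_of_eq ?_) h3
    exact (Equiv.sum_comp e.symm (fun i => ‖a i‖ ^ 2 / Real.sqrt (1 + (g i 0) ^ 2 + h ^ 2 * (g i 1) ^ 2)))

lemma Cov.mono {V : E2 → E2} {L h : ℝ} {S S' : Set E2} {m m' : ℝ} (H : Cov V L h S m)
    (hS : S' ⊆ S) (hm : m ≤ m') : Cov V L h S' m' := by
  obtain ⟨k, c, a, b, g, h1, h2, h3⟩ := H
  refine ⟨k, c, a, b, g, h1, ?_, h3.trans hm⟩
  refine Subset.trans ?_ h2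
  rintro z ⟨p, hp, hz⟩
  exact ⟨p, hS hp, hz⟩

lemma Cov.empty {V : E2 → E2} {L h : ℝ} {m : ℝ} (hm : 0 ≤ m) : Cov V L h ∅ m := by
  refine Cov.of_fintype (ι := Fin 0) (fun _ => 0) (fun _ => 0) (fun _ => 0) (fun _ => 0)
    (fun i => i.elim0) (fun p hp => absurd hp (notMem_empty p)) ?_
  simpa using hm

lemma Cov.union {V : E2 → E2} {L h : ℝ} {S S' : Set E2} {m m' : ℝ} (H : Cov V L h S m)
    (H' : Cov V L h S' m') : Cov V L h (S ∪ S') (m + m') := by
  obtain ⟨k, c, a, b, g, h1, h2, h3⟩ := H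
  obtain ⟨k', c', a', b', g', h1', h2', h3'⟩ := H'
  refine Cov.of_fintype (ι := Fin k ⊕ Fin k') (Sum.elim c c') (Sum.elim a a') (Sum.elim b b')
    (Sum.elim g g') ?_ ?_ ?_
  · rintro (i | i)
    · exact h1 i
    · exact h1' i
  · rintro p (hp | hp) s hs
    · have := h2 (show ((s, p + s • V p) : ℝ × E2) ∈ _ from ⟨p, hp, hs, rfl⟩)
      obtain ⟨i, x, hx, y, hy, hxy⟩ := mem_iUnion.1 this
      exact ⟨Sum.inl i, x, hx, y, hy, hxy⟩
    · have := h2' (show ((s, p + s • V p) : ℝ × E2) ∈ _ from ⟨p, hp, hs, rfl⟩)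
      obtain ⟨i, x, hx, y, hy, hxy⟩ := mem_iUnion.1 this
      exact ⟨Sum.inr i, x, hx, y, hy, hxy⟩
  · rw [Fintype.sum_sum_type]
    exact add_le_add h3 h3'

/-- Combinatorial core: unit squares centred at the points of the sheared lattice cover the
plane. -/
lemma comb_nonneg (a b X Y : ℝ) (ha : 0 ≤ a) (hb : 0 ≤ b) (hab1 : a * b < 1) :
    ∃ k j : ℤ, |X - k - a * j| ≤ 1 / 2 ∧ |Y - j - b * k| ≤ 1 / 2 := by
  set kf : ℤ → ℤ := fun j => ⌊X - a * j + 1 / 2⌋ with hkf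
  have hk1 : ∀ j : ℤ, (kf j : ℝ) ≤ X - a * j + 1 / 2 := fun j => Int.floor_le _
  have hk2 : ∀ j : ℤ, X - a * j - 1 / 2 < (kf j : ℝ) := fun j => by
    have := Int.lt_floor_add_one (X - a * j + 1 / 2)
    simp only [hkf]
    linarith
  have hγ : 0 < 1 - a * b := by linarith
  obtain ⟨j, hj, hmin⟩ := Int.exists_least_of_bdd (P := fun j : ℤ => Y - j - b * kf j ≤ 1 / 2)
    ⟨⌊(Y - b * X - b / 2 - 1 / 2) / (1 - a * b)⌋, by
      intro z hz
      have h1 : b * kf z ≤ b * (X - a * z + 1 / 2) := mul_le_mul_of_nonneg_left (hk1 z) hb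
      have h2 : (Y - b * X - b / 2 - 1 / 2) / (1 - a * b) ≤ z := by
        rw [div_le_iff₀ hγ]
        nlinarith
      have h3 : ((⌊(Y - b * X - b / 2 - 1 / 2) / (1 - a * b)⌋ : ℤ) : ℝ) ≤ z :=
        (Int.floor_le _).trans h2
      exact_mod_cast h3⟩
    ⟨⌈(Y - b * X + b / 2 - 1 / 2) / (1 - a * b)⌉, by
      have h1 : b * (X - a * ⌈(Y - b * X + b / 2 - 1 / 2) / (1 - a * b)⌉ - 1 / 2) ≤
          b * kf ⌈(Y - b * X + b / 2 - 1 / 2) / (1 - a * b)⌉ :=
        mul_le_mul_of_nonneg_left (hk2 _).le hb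
      have h2 : (Y - b * X + b / 2 - 1 / 2) / (1 - a * b) ≤
          (⌈(Y - b * X + b / 2 - 1 / 2) / (1 - a * b)⌉ : ℝ) := Int.le_ceil _
      rw [div_le_iff₀ hγ] at h2
      nlinarith⟩
  refine ⟨kf j, j, ?_, ?_⟩
  · rw [abs_le]
    constructor <;> linarith [hk1 j, hk2 j]
  · have h1 : ¬ (Y - (j - 1 : ℤ) - b * kf (j - 1) ≤ 1 / 2) := by
      intro h
      have := hmin _ h
      omega
    push Not at h1
    have h2 : kf j ≤ kf (j - 1) := by
      apply Int.floor_mono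
      push_cast
      nlinarith
    have h3 : b * (kf j : ℝ) ≤ b * (kf (j - 1) : ℝ) :=
      mul_le_mul_of_nonneg_left (by exact_mod_cast h2) hb
    push_cast at h1
    rw [abs_le]
    constructor <;> linarith

lemma comb (a b X Y : ℝ) (hab : 0 ≤ a * b) (hab1 : a * b < 1) :
    ∃ k j : ℤ, |X - k - a * j| ≤ 1 / 2 ∧ |Y - j - b * k| ≤ 1 / 2 := by
  rcases mul_nonneg_iff.1 hab with ⟨ha, hb⟩ | ⟨ha, hb⟩
  · exact comb_nonneg a b X Y ha hb hab1
  · obtain ⟨k, j, h1, h2⟩ := comb_nonneg (-a) (-b) (-X) Y (by linarith) (by linarith) (by linarith)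
    refine ⟨-k, j, ?_, ?_⟩
    · rw [← abs_neg]
      push_cast
      convert h1 using 2
      ring
    · push_cast
      convert h2 using 2
      ring


noncomputable def fvec (φ : ℝ) : E2 := !₂[Real.cos φ, Real.sin φ]

lemma inner_E2 (x y : E2) : inner ℝ x y = x 0 * y 0 + x 1 * y 1 := by
  simp [PiLp.inner_apply, Fin.sum_univ_two]
  ring

lemma exists_basis (φ : ℝ) : ∃ e : OrthonormalBasis (Fin 2) ℝ E2,
    e 0 = fvec φ ∧ e 1 = fvec (φ + Real.pi / 2) := by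
  have h := Real.sin_sq_add_cos_sq φ
  have h00 : inner ℝ (fvec φ) (fvec φ) = 1 := by
    rw [inner_E2]; simp [fvec]; nlinarith
  have h11 : inner ℝ (fvec (φ + Real.pi / 2)) (fvec (φ + Real.pi / 2)) = 1 := by
    rw [inner_E2]; simp [fvec, Real.cos_add_pi_div_two, Real.sin_add_pi_div_two]; nlinarith
  have h01 : inner ℝ (fvec φ) (fvec (φ + Real.pi / 2)) = 0 := by
    rw [inner_E2]; simp [fvec, Real.cos_add_pi_div_two, Real.sin_add_pi_div_two]; ring
  have h10 : inner ℝ (fvec (φ + Real.pi / 2)) (fvec φ) = 0 := by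
    rw [real_inner_comm]; exact h01
  have ho : Orthonormal ℝ ![fvec φ, fvec (φ + Real.pi / 2)] := by
    rw [orthonormal_iff_ite]
    intro i j
    fin_cases i <;> fin_cases j
    · simpa using! h00
    · simpa using! h01
    · simpa using! h10
    · simpa using! h11
  have hc : Fintype.card (Fin 2) = Module.finrank ℝ E2 := by simp
  refine ⟨(basisOfOrthonormalOfCardEqFinrank ho hc).toOrthonormalBasis (by simpa using ho), ?_, ?_⟩
  · simp
  · simp

lemma frame (A : E2 →L[ℝ] E2) (htr : LinearMap.trace ℝ _ A.toLinearMap = 0) :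
    ∃ (e : OrthonormalBasis (Fin 2) ℝ E2) (α β : ℝ), A (e 0) = β • e 1 ∧ A (e 1) = α • e 0 ∧
      LinearMap.det A.toLinearMap = -(α * β) := by
  -- trace in an orthonormal basis
  have htr' : ∀ φ : ℝ, inner ℝ (fvec φ) (A (fvec φ)) +
      inner ℝ (fvec (φ + Real.pi / 2)) (A (fvec (φ + Real.pi / 2))) = 0 := by
    intro φ
    obtain ⟨e, he0, he1⟩ := exists_basis φ
    have := LinearMap.trace_eq_sum_inner A.toLinearMap e
    rw [htr, Fin.sum_univ_two, he0, he1] at this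
    simpa using this.symm
  have hcont : Continuous fun φ : ℝ => inner ℝ (fvec φ) (A (fvec φ)) := by
    have hf : Continuous fvec := by
      unfold fvec
      fun_prop
    exact hf.inner (A.continuous.comp hf)
  obtain ⟨φ, hφ⟩ : ∃ φ : ℝ, inner ℝ (fvec φ) (A (fvec φ)) = 0 := by
    have h0 := htr' 0
    rw [zero_add] at h0
    rcases le_total 0 (inner ℝ (fvec 0) (A (fvec 0))) with h | h
    · have := intermediate_value_uIcc (a := 0) (b := Real.pi / 2) hcont.continuousOn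
      obtain ⟨φ, -, hφ⟩ := this (show (0 : ℝ) ∈ _ by
        rw [mem_uIcc]; right; constructor <;> linarith)
      exact ⟨φ, hφ⟩
    · have := intermediate_value_uIcc (a := 0) (b := Real.pi / 2) hcont.continuousOn
      obtain ⟨φ, -, hφ⟩ := this (show (0 : ℝ) ∈ _ by
        rw [mem_uIcc]; left; constructor <;> linarith)
      exact ⟨φ, hφ⟩
  obtain ⟨e, he0, he1⟩ := exists_basis φ
  have h00 : inner ℝ (e 0) (A (e 0)) = 0 := by rw [he0]; exact hφ
  have h11 : inner ℝ (e 1) (A (e 1)) = 0 := by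
    have := htr' φ
    rw [hφ, zero_add] at this
    rw [he1]; exact this
  refine ⟨e, inner ℝ (e 0) (A (e 1)), inner ℝ (e 1) (A (e 0)), ?_, ?_, ?_⟩
  · have := e.sum_repr' (A (e 0))
    rw [Fin.sum_univ_two, h00, zero_smul, zero_add] at this
    exact this.symm
  · have := e.sum_repr' (A (e 1))
    rw [Fin.sum_univ_two, h11, zero_smul, add_zero] at this
    exact this.symm
  · rw [← LinearMap.det_toMatrix e.toBasis, Matrix.det_fin_two]
    simp only [LinearMap.toMatrix_apply, OrthonormalBasis.coe_toBasis,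
      OrthonormalBasis.coe_toBasis_repr_apply, OrthonormalBasis.repr_apply_apply,
      ContinuousLinearMap.coe_coe]
    rw [h00, h11]
    ring


end Crest.Agent.R211.Ruled
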