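import Crest.Agent.R211.RuledLocal

set_option autoImplicit false
open MeasureTheory Set

namespace Crest.Agent.R211.Ruled

lemma cov_global (V : E2 → E2) (L h : ℝ) (D : Set E2) (hD : IsCompact D) (hV : ContinuousOn V D)
    (loc : ∀ p ∈ D, ∀ c, Jf h (V p) < c → ∃ r > 0, ∀ K : Set E2, IsCompact K →
      K ⊆ Metric.closedBall p r → ∀ η > 0, Cov V L h K (c * volume.real K + η))
    (ε : ℝ) (hε : 0 < ε) :
    Cov V L h D ((∫ p in D, Jf h (V p)) + ε) := by
  have hvD : 0 ≤ volume.real D := measureReal_nonneg
  set ε₁ : ℝ := ε / (4 * (volume.real D + 1)) with hε₁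
  have hε₁0 : 0 < ε₁ := by positivity
  set F : E2 → ℝ := fun q => Jf h (V q) + 2 * ε₁ with hF
  have hJc : ContinuousOn (fun q => Jf h (V q)) D := (continuous_Jf h).comp_continuousOn hV
  have hFc : ContinuousOn F D := hJc.add continuousOn_const
  have hFi : IntegrableOn F D := hFc.integrableOn_compact hD
  -- local statement
  have h1 : ∀ p ∈ D, ∃ r > 0, ∀ K : Set E2, IsCompact K → K ⊆ D → K ⊆ Metric.closedBall p r →
      ∀ η > 0, Cov V L h K ((∫ q in K, F q) + η) := by
    intro p hp
    obtain ⟨r₁, hr₁, hloc⟩ := loc p hp (Jf h (V p) + ε₁) (by linarith)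
    have hcw := (hJc p hp).eventually_const_lt (show Jf h (V p) - ε₁ < Jf h (V p) by linarith)
    obtain ⟨r₂, hr₂, hsub⟩ := Metric.mem_nhdsWithin_iff.1 hcw
    refine ⟨min r₁ (r₂ / 2), by positivity, fun K hK hKD hKr η hη => ?_⟩
    have hK1 : K ⊆ Metric.closedBall p r₁ :=
      hKr.trans (Metric.closedBall_subset_closedBall (min_le_left _ _))
    refine (hloc K hK hK1 η hη).mono subset_rfl ?_
    have hle : (Jf h (V p) + ε₁) * volume.real K ≤ ∫ q in K, F q := by
      have hc : ∫ q in K, (Jf h (V p) + ε₁) = (Jf h (V p) + ε₁) * volume.real K := by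
        rw [setIntegral_const, smul_eq_mul, mul_comm]
      rw [← hc]
      refine setIntegral_mono_on (integrableOn_const hK.measure_lt_top.ne)
        (hFi.mono_set hKD) hK.measurableSet ?_
      intro q hq
      have hqb : q ∈ Metric.ball p r₂ := by
        have := hKr hq
        rw [Metric.mem_closedBall] at this
        rw [Metric.mem_ball]
        linarith [min_le_right r₁ (r₂ / 2)]
      have : Jf h (V p) - ε₁ < Jf h (V q) := hsub ⟨hqb, hKD hq⟩
      simp only [hF]
      linarith
    linarith
  choose! r hr hrK using h1
  obtain ⟨t, htD, hDt⟩ := hD.elim_nhds_subcover (fun p => Metric.ball p (r p))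
    (fun p hp => Metric.ball_mem_nhds p (hr p hp))
  have claim : ∀ t : Finset E2, (∀ x ∈ t, x ∈ D) → ∀ K : Set E2, IsCompact K → K ⊆ D →
      K ⊆ ⋃ p ∈ t, Metric.ball p (r p) → ∀ η > 0, Cov V L h K ((∫ q in K, F q) + η) := by
    classical
    intro t
    induction t using Finset.induction_on with
    | empty =>
      intro _ K hK hKD hKt η hη
      have : K = ∅ := by
        apply eq_empty_of_subset_empty
        simpa using hKt
      subst this
      apply Cov.empty
      simp [hη.le]
    | insert p t hpt ih =>
      intro hsub K hK hKD hKt η hη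
      have hpD : p ∈ D := hsub p (Finset.mem_insert_self _ _)
      set K₁ := K ∩ Metric.closedBall p (r p) with hK₁
      set K₂ := K \ Metric.ball p (r p) with hK₂
      have hK₁c : IsCompact K₁ := hK.inter_right Metric.isClosed_closedBall
      have hK₂c : IsCompact K₂ := hK.diff Metric.isOpen_ball
      have hKu : K₁ ∪ K₂ = K := by
        ext x
        simp only [hK₁, hK₂, mem_union, mem_inter_iff, mem_sdiff]
        constructor
        · rintro (h | h) <;> exact h.1
        · intro hx
          by_cases hb : x ∈ Metric.ball p (r p)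
          · left; exact ⟨hx, Metric.ball_subset_closedBall hb⟩
          · right; exact ⟨hx, hb⟩
      have hdisj : AEDisjoint volume K₁ K₂ := by
        refine measure_mono_null ?_ (Measure.addHaar_sphere volume p (r p))
        rintro x ⟨⟨_, h1⟩, ⟨_, h2⟩⟩
        rw [Metric.mem_closedBall] at h1
        rw [Metric.mem_ball, not_lt] at h2
        exact le_antisymm h1 h2
      have hint : ∫ q in K, F q = (∫ q in K₁, F q) + ∫ q in K₂, F q := by
        rw [← hKu]
        exact setIntegral_union₀ hdisj hK₂c.measurableSet.nullMeasurableSet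
          (hFi.mono_set (inter_subset_left.trans hKD)) (hFi.mono_set (sdiff_subset.trans hKD))
      have c1 := hrK p hpD K₁ hK₁c (inter_subset_left.trans hKD) inter_subset_right (η / 2)
        (by linarith)
      have c2 := ih (fun x hx => hsub x (Finset.mem_insert_of_mem hx)) K₂ hK₂c
        (sdiff_subset.trans hKD) (by
          rintro x ⟨hx, hxb⟩
          have := hKt hx
          rw [Finset.set_biUnion_insert] at this
          rcases this with h | h
          · exact absurd h hxb
          · exact h) (η / 2) (by linarith)
      have c3 := c1.union c2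
      rw [hKu] at c3
      refine c3.mono subset_rfl ?_
      rw [hint]
      linarith
  refine (claim t htD D hD subset_rfl hDt (ε / 2) (by linarith)).mono subset_rfl ?_
  have : ∫ q in D, F q = (∫ q in D, Jf h (V q)) + 2 * ε₁ * volume.real D := by
    simp only [hF]
    rw [integral_add (hJc.integrableOn_compact hD) (integrableOn_const hD.measure_lt_top.ne),
      setIntegral_const, smul_eq_mul]
    ring
  rw [this]
  have h3 : 2 * ε₁ * volume.real D ≤ ε / 2 := by
    rw [hε₁]
    have : 2 * (ε / (4 * (volume.real D + 1))) * volume.real D =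
      (ε / 2) * (volume.real D / (volume.real D + 1)) := by field_simp; ring
    rw [this]
    have h4 : volume.real D / (volume.real D + 1) ≤ 1 := by
      rw [div_le_one (by positivity)]; linarith
    nlinarith
  linarith

end Crest.Agent.R211.Ruled
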