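import Crest.Agent.R211.Ruled

set_option autoImplicit false
open MeasureTheory Set

namespace Crest.Agent.R211.Ruled

lemma lin_bound (a b x y δ γ M : ℝ) (hδ : 0 < δ) (hγ : 0 < γ) (h1 : γ ≤ 1 - a * b)
    (hM : |a| + |b| ≤ M) (hx : |x + a * y| ≤ δ / 2) (hy : |y + b * x| ≤ δ / 2) :
    |x| + |y| ≤ δ * ((2 + M) / (2 * γ)) := by
  have hy' : |y| * γ ≤ δ / 2 * (1 + |b|) := by
    have e : (1 - a * b) * y = (y + b * x) - b * (x + a * y) := by ring
    have h2 : |(1 - a * b) * y| ≤ δ / 2 + |b| * (δ / 2) := by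
      rw [e]
      refine (abs_sub _ _).trans ?_
      rw [abs_mul]
      gcongr
    rw [abs_mul, abs_of_pos (lt_of_lt_of_le hγ h1)] at h2
    have : |y| * γ ≤ (1 - a * b) * |y| := by
      rw [mul_comm]
      exact mul_le_mul_of_nonneg_right h1 (abs_nonneg _)
    linarith
  have hx' : |x| * γ ≤ δ / 2 * (1 + |a|) := by
    have e : (1 - a * b) * x = (x + a * y) - a * (y + b * x) := by ring
    have h2 : |(1 - a * b) * x| ≤ δ / 2 + |a| * (δ / 2) := by
      rw [e]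
      refine (abs_sub _ _).trans ?_
      rw [abs_mul]
      gcongr
    rw [abs_mul, abs_of_pos (lt_of_lt_of_le hγ h1)] at h2
    have : |x| * γ ≤ (1 - a * b) * |x| := by
      rw [mul_comm]
      exact mul_le_mul_of_nonneg_right h1 (abs_nonneg _)
    linarith
  have h3 : (|x| + |y|) * (2 * γ) ≤ δ * (2 + M) := by nlinarith
  rw [← mul_div_assoc, le_div_iff₀ (by positivity)]
  exact h3

/-- The half-open cell of the grid of mesh `δ` in the frame `e`. -/
def cell (e : OrthonormalBasis (Fin 2) ℝ E2) (δ : ℝ) (kj : ℤ × ℤ) : Set E2 :=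
  {q : E2 | δ * (kj.1 - 1 / 2) ≤ inner ℝ (e 0) q ∧ inner ℝ (e 0) q < δ * (kj.1 + 1 / 2) ∧
    δ * (kj.2 - 1 / 2) ≤ inner ℝ (e 1) q ∧ inner ℝ (e 1) q < δ * (kj.2 + 1 / 2)}

lemma cell_eq (e : OrthonormalBasis (Fin 2) ℝ E2) (δ : ℝ) (kj : ℤ × ℤ) :
    cell e δ kj = (fun q => (e.repr q).ofLp) ⁻¹' (Set.pi univ fun i : Fin 2 =>
      Ico (![δ * (kj.1 - 1 / 2), δ * (kj.2 - 1 / 2)] i) (![δ * (kj.1 + 1 / 2), δ * (kj.2 + 1 / 2)] i)) := by
  ext q
  simp only [cell, mem_ofPred_eq, mem_preimage, mem_pi, mem_univ, true_imp_iff, Fin.forall_fin_two,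
    mem_Ico]
  simp only [Matrix.cons_val_zero, Matrix.cons_val_one, OrthonormalBasis.repr_apply_apply]
  tauto

lemma measurableSet_cell (e : OrthonormalBasis (Fin 2) ℝ E2) (δ : ℝ) (kj : ℤ × ℤ) :
    MeasurableSet (cell e δ kj) := by
  rw [cell_eq]
  have h : MeasurePreserving (fun q => (e.repr q).ofLp) :=
    (PiLp.volume_preserving_ofLp (Fin 2)).comp e.measurePreserving_repr
  exact h.measurable (MeasurableSet.univ_pi fun i => measurableSet_Ico)

lemma volume_cell (e : OrthonormalBasis (Fin 2) ℝ E2) (δ : ℝ) (hδ : 0 < δ) (kj : ℤ × ℤ) :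
    volume (cell e δ kj) = ENNReal.ofReal (δ ^ 2) := by
  rw [cell_eq]
  have h : MeasurePreserving (fun q => (e.repr q).ofLp) :=
    (PiLp.volume_preserving_ofLp (Fin 2)).comp e.measurePreserving_repr
  rw [h.measure_preimage (MeasurableSet.univ_pi fun i => measurableSet_Ico).nullMeasurableSet]
  rw [Real.volume_pi_Ico, Fin.prod_univ_two]
  simp only [Matrix.cons_val_zero, Matrix.cons_val_one]
  rw [← ENNReal.ofReal_mul (by nlinarith)]
  congr 1
  ring

lemma disjoint_cell (e : OrthonormalBasis (Fin 2) ℝ E2) (δ : ℝ) (hδ : 0 < δ) {kj kj' : ℤ × ℤ}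
    (hne : kj ≠ kj') : Disjoint (cell e δ kj) (cell e δ kj') := by
  rw [Set.disjoint_left]
  rintro q ⟨h1, h2, h3, h4⟩ ⟨h1', h2', h3', h4'⟩
  apply hne
  have key : ∀ (m n : ℤ) (t : ℝ), δ * (m - 1 / 2) ≤ t → t < δ * (m + 1 / 2) →
      δ * (n - 1 / 2) ≤ t → t < δ * (n + 1 / 2) → m = n := by
    intro m n t ha hb hc hd
    have h1 : (m : ℝ) - 1 / 2 < n + 1 / 2 := lt_of_mul_lt_mul_left (ha.trans_lt hd) hδ.le
    have h2 : (n : ℝ) - 1 / 2 < m + 1 / 2 := lt_of_mul_lt_mul_left (hc.trans_lt hb) hδ.le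
    have h1' : (m : ℝ) < n + 1 := by linarith
    have h2' : (n : ℝ) < m + 1 := by linarith
    have h1'' : m < n + 1 := by exact_mod_cast h1'
    have h2'' : n < m + 1 := by exact_mod_cast h2'
    omega
  exact Prod.ext (key _ _ _ h1 h2 h1' h2') (key _ _ _ h3 h4 h3' h4')

/-- grid points -/
noncomputable def gp (e : OrthonormalBasis (Fin 2) ℝ E2) (δ : ℝ) (kj : ℤ × ℤ) : E2 :=
  (δ * kj.1) • e 0 + (δ * kj.2) • e 1

lemma e_expand (e : OrthonormalBasis (Fin 2) ℝ E2) (q : E2) :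
    q = (inner ℝ (e 0) q) • e 0 + (inner ℝ (e 1) q) • e 1 := by
  have := e.sum_repr' q
  rw [Fin.sum_univ_two] at this
  exact this.symm

lemma inner_e0_gp (e : OrthonormalBasis (Fin 2) ℝ E2) (δ : ℝ) (kj : ℤ × ℤ) :
    inner ℝ (e 0) (gp e δ kj) = δ * kj.1 := by
  simp [gp, inner_add_right, inner_smul_right, e.inner_eq_zero (show (0 : Fin 2) ≠ 1 by decide)]

lemma inner_e1_gp (e : OrthonormalBasis (Fin 2) ℝ E2) (δ : ℝ) (kj : ℤ × ℤ) :
    inner ℝ (e 1) (gp e δ kj) = δ * kj.2 := by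
  simp [gp, inner_add_right, inner_smul_right, e.inner_eq_zero (show (1 : Fin 2) ≠ 0 by decide)]

lemma norm_le_of_coords (e : OrthonormalBasis (Fin 2) ℝ E2) (q : E2) :
    ‖q‖ ≤ |inner ℝ (e 0) q| + |inner ℝ (e 1) q| := by
  conv_lhs => rw [e_expand e q]
  refine (norm_add_le _ _).trans ?_
  rw [norm_smul, norm_smul, e.norm_eq_one, e.norm_eq_one]
  simp

lemma abs_inner_e_le (e : OrthonormalBasis (Fin 2) ℝ E2) (i : Fin 2) (q : E2) :
    |inner ℝ (e i) q| ≤ ‖q‖ := by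
  have := abs_real_inner_le_norm (e i) q
  rwa [e.norm_eq_one, one_mul] at this

lemma norm_sub_gp_of_mem_cell (e : OrthonormalBasis (Fin 2) ℝ E2) (δ : ℝ) (kj : ℤ × ℤ)
    {q : E2} (hq : q ∈ cell e δ kj) : ‖q - gp e δ kj‖ ≤ δ := by
  refine (norm_le_of_coords e _).trans ?_
  rw [inner_sub_right, inner_sub_right, inner_e0_gp, inner_e1_gp]
  obtain ⟨h1, h2, h3, h4⟩ := hq
  have a1 : |inner ℝ (e 0) q - δ * kj.1| ≤ δ / 2 := by rw [abs_le]; constructor <;> nlinarith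
  have a2 : |inner ℝ (e 1) q - δ * kj.2| ≤ δ / 2 := by rw [abs_le]; constructor <;> nlinarith
  linarith

lemma Jf_nonneg (h : ℝ) (v : E2) : 0 ≤ Jf h v := by
  unfold Jf
  positivity

lemma Jf_le_one (h : ℝ) (v : E2) : Jf h v ≤ 1 := by
  unfold Jf
  rw [div_le_one (by positivity)]
  exact Real.one_le_sqrt.2 (by nlinarith [sq_nonneg (v 0), mul_nonneg (sq_nonneg h) (sq_nonneg (v 1))])

lemma continuous_Jf (h : ℝ) : Continuous (Jf h) := by
  unfold Jf
  refine continuous_const.div ?_ ?_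
  · fun_prop
  · intro v
    have : 0 < 1 + (v 0)^2 + h^2 * (v 1)^2 := by positivity
    positivity

/-- Pointwise covering: the moving point `q + s V q` lies in the moving square of a grid point. -/
lemma local_point (V : E2 → E2) (L : ℝ) (hL : 0 < L) (A : E2 →L[ℝ] E2)
    (e : OrthonormalBasis (Fin 2) ℝ E2) (α β : ℝ) (he0 : A (e 0) = β • e 1)
    (he1 : A (e 1) = α • e 0) (hαβ0 : 0 ≤ α * β) (γ C δ κ : ℝ) (hγdef : γ = 1 - L ^ 2 * (α * β))
    (hγ : 0 < γ) (hCdef : C = (2 + L * (|α| + |β|)) / (2 * γ)) (hδ : 0 < δ)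
    (q : E2) (s : ℝ) (hs : |s| ≤ L)
    (herr : ∀ g : E2, ‖q - g‖ ≤ δ * C → L * ‖V q - V g - A (q - g)‖ ≤ δ * κ / 2) :
    ∃ kj : ℤ × ℤ, ‖q - gp e δ kj‖ ≤ δ * C ∧ ∃ X Y : ℝ, |X| ≤ δ * (1 + κ) / 2 ∧
      |Y| ≤ δ * (1 + κ) / 2 ∧
      q + s • V q = gp e δ kj + X • e 0 + Y • e 1 + s • V (gp e δ kj) := by
  set ξ : ℝ := inner ℝ (e 0) q with hξ
  set ζ : ℝ := inner ℝ (e 1) q with hζ
  have hsL : s ^ 2 ≤ L ^ 2 := by
    rw [← sq_abs]
    exact pow_le_pow_left₀ (abs_nonneg _) hs 2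
  have hab' : (s * α) * (s * β) = s ^ 2 * (α * β) := by ring
  have hab : 0 ≤ (s * α) * (s * β) := by rw [hab']; positivity
  have hab1 : γ ≤ 1 - (s * α) * (s * β) := by
    rw [hγdef, hab']
    have := mul_le_mul_of_nonneg_right hsL hαβ0
    linarith
  obtain ⟨k, j, hk, hj⟩ := comb (s * α) (s * β) ((ξ + s * α * ζ) / δ) ((ζ + s * β * ξ) / δ) hab
    (by linarith)
  have hk' : |(ξ - δ * k) + (s * α) * (ζ - δ * j)| ≤ δ / 2 := by
    have e1 : (ξ - δ * k) + (s * α) * (ζ - δ * j) =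
        δ * ((ξ + s * α * ζ) / δ - k - s * α * j) := by field_simp; ring
    rw [e1, abs_mul, abs_of_pos hδ]
    have := mul_le_mul_of_nonneg_left hk hδ.le
    linarith
  have hj' : |(ζ - δ * j) + (s * β) * (ξ - δ * k)| ≤ δ / 2 := by
    have e1 : (ζ - δ * j) + (s * β) * (ξ - δ * k) =
        δ * ((ζ + s * β * ξ) / δ - j - s * β * k) := by field_simp; ring
    rw [e1, abs_mul, abs_of_pos hδ]
    have := mul_le_mul_of_nonneg_left hj hδ.le
    linarith
  have hM : |s * α| + |s * β| ≤ L * (|α| + |β|) := by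
    rw [abs_mul, abs_mul, mul_add]
    exact add_le_add (mul_le_mul_of_nonneg_right hs (abs_nonneg _))
      (mul_le_mul_of_nonneg_right hs (abs_nonneg _))
  have hnear := lin_bound (s * α) (s * β) (ξ - δ * k) (ζ - δ * j) δ γ _ hδ hγ hab1 hM hk' hj'
  have hnorm : ‖q - gp e δ (k, j)‖ ≤ δ * C := by
    refine (norm_le_of_coords e _).trans ?_
    rw [inner_sub_right, inner_sub_right, inner_e0_gp, inner_e1_gp, hCdef]
    exact hnear
  refine ⟨(k, j), hnorm, ?_⟩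
  -- error vector
  set E : E2 := V q - V (gp e δ (k, j)) - A (q - gp e δ (k, j)) with hE
  have hEn : L * ‖E‖ ≤ δ * κ / 2 := herr _ hnorm
  have hE0 : |s * inner ℝ (e 0) E| ≤ δ * κ / 2 := by
    rw [abs_mul]
    calc |s| * |inner ℝ (e 0) E| ≤ L * ‖E‖ :=
          mul_le_mul hs (abs_inner_e_le e 0 E) (abs_nonneg _) hL.le
      _ ≤ _ := hEn
  have hE1 : |s * inner ℝ (e 1) E| ≤ δ * κ / 2 := by
    rw [abs_mul]
    calc |s| * |inner ℝ (e 1) E| ≤ L * ‖E‖ :=
          mul_le_mul hs (abs_inner_e_le e 1 E) (abs_nonneg _) hL.le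
      _ ≤ _ := hEn
  refine ⟨(ξ - δ * k) + (s * α) * (ζ - δ * j) + s * inner ℝ (e 0) E,
    (ζ - δ * j) + (s * β) * (ξ - δ * k) + s * inner ℝ (e 1) E, ?_, ?_, ?_⟩
  · refine (abs_add_le _ _).trans ?_
    linarith
  · refine (abs_add_le _ _).trans ?_
    linarith
  · have hVq : V q = V (gp e δ (k, j)) + A (q - gp e δ (k, j)) + E := by rw [hE]; abel
    have hq' : q - gp e δ (k, j) = (ξ - δ * k) • e 0 + (ζ - δ * j) • e 1 := by
      conv_lhs => rw [e_expand e q]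
      simp only [gp]
      module
    have hAq : A (q - gp e δ (k, j)) = ((ξ - δ * k) * β) • e 1 + ((ζ - δ * j) * α) • e 0 := by
      rw [hq', map_add, map_smul, map_smul, he0, he1, smul_smul, smul_smul]
    have hEe := e_expand e E
    have hqq : q = gp e δ (k, j) + ((ξ - δ * k) • e 0 + (ζ - δ * j) • e 1) := by
      rw [← hq']; abel
    calc q + s • V q = gp e δ (k, j) + ((ξ - δ * k) • e 0 + (ζ - δ * j) • e 1) +
          s • (V (gp e δ (k, j)) + (((ξ - δ * k) * β) • e 1 + ((ζ - δ * j) * α) • e 0) +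
            ((inner ℝ (e 0) E) • e 0 + (inner ℝ (e 1) E) • e 1)) := by
          rw [← hEe, ← hAq, ← hVq, ← hqq]
      _ = _ := by module

set_option maxHeartbeats 4000000 in
lemma local_cov (V : E2 → E2) (L h : ℝ) (hL : 0 < L) (p : E2) (A : E2 →L[ℝ] E2)
    (hA : HasStrictFDerivAt V A p) (htr : LinearMap.trace ℝ _ A.toLinearMap = 0)
    (hdet : -(L ^ 2)⁻¹ < LinearMap.det A.toLinearMap ∧ LinearMap.det A.toLinearMap ≤ 0)
    (c : ℝ) (hc : Jf h (V p) < c) :
    ∃ r > 0, ∀ K : Set E2, IsCompact K → K ⊆ Metric.closedBall p r → ∀ η > 0,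
      Cov V L h K (c * volume.real K + η) := by
  obtain ⟨e, α, β, he0, he1, hd⟩ := frame A htr
  have hc0 : 0 < c := (Jf_nonneg h _).trans_lt hc
  have hαβ0 : 0 ≤ α * β := by linarith [hdet.2]
  have hαβ1 : L ^ 2 * (α * β) < 1 := by
    have h1 : α * β < (L ^ 2)⁻¹ := by linarith [hdet.1]
    calc L ^ 2 * (α * β) < L ^ 2 * (L ^ 2)⁻¹ := by gcongr
      _ = 1 := mul_inv_cancel₀ (by positivity)
  set γ : ℝ := 1 - L ^ 2 * (α * β) with hγdef
  have hγ : 0 < γ := by linarith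
  set C : ℝ := (2 + L * (|α| + |β|)) / (2 * γ) with hCdef
  have hC : 0 < C := by positivity
  -- constants
  set c₁ : ℝ := (Jf h (V p) + c) / 2 with hc₁def
  have hc₁ : Jf h (V p) < c₁ := by rw [hc₁def]; linarith
  have hc₁c : c₁ < c := by rw [hc₁def]; linarith
  have hc₁0 : 0 < c₁ := (Jf_nonneg h _).trans_lt hc₁
  set κ : ℝ := min 1 ((c - c₁) / (3 * c₁)) with hκdef
  have hκ0 : 0 < κ := lt_min one_pos (div_pos (by linarith) (by positivity))
  have hκ1 : κ ≤ 1 := min_le_left _ _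
  have hκ2 : κ ≤ (c - c₁) / (3 * c₁) := min_le_right _ _
  have hκc : (1 + κ) ^ 2 * c₁ ≤ c := by
    rw [le_div_iff₀ (by positivity)] at hκ2
    nlinarith
  set θ : ℝ := κ / (2 * L * C) with hθdef
  have hθ : 0 < θ := by positivity
  -- neighbourhoods
  have hstrict := hA.isLittleO.def hθ
  rw [nhds_prod_eq] at hstrict
  obtain ⟨r₁, hr₁, hball₁⟩ : ∃ r₁ > 0, ∀ q ∈ Metric.ball p r₁, ∀ q' ∈ Metric.ball p r₁,
      ‖V q - V q' - A (q - q')‖ ≤ θ * ‖q - q'‖ := by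
    obtain ⟨s, hs, hs'⟩ := Filter.eventually_prod_self_iff'.1 hstrict
    obtain ⟨r₁, hr₁, hsub⟩ := Metric.mem_nhds_iff.1 hs
    exact ⟨r₁, hr₁, fun q hq q' hq' => hs' q (hsub hq) q' (hsub hq')⟩
  obtain ⟨r₂, hr₂, hball₂⟩ : ∃ r₂ > 0, ∀ q ∈ Metric.ball p r₂, Jf h (V q) < c₁ := by
    have hcts : ContinuousAt (fun q => Jf h (V q)) p :=
      (continuous_Jf h).continuousAt.comp hA.continuousAt
    obtain ⟨r₂, hr₂, hsub⟩ := Metric.mem_nhds_iff.1 (hcts.eventually_lt_const hc₁)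
    exact ⟨r₂, hr₂, fun q hq => hsub hq⟩
  set r : ℝ := min r₁ r₂ / 2 with hrdef
  have hr : 0 < r := by positivity
  have hr_le : 2 * r ≤ r₁ ∧ 2 * r ≤ r₂ := by
    rw [hrdef]
    exact ⟨by linarith [min_le_left r₁ r₂], by linarith [min_le_right r₁ r₂]⟩
  refine ⟨r, hr, fun K hK hKr η hη => ?_⟩
  -- outer regularity
  have hKfin : volume K ≠ ⊤ := hK.measure_lt_top.ne
  obtain ⟨O, hKO, hO, hOvol⟩ := K.exists_isOpen_lt_add hKfin
    (ε := ENNReal.ofReal (η / c)) (by simpa using div_pos hη hc0)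
  have hOfin : volume O ≠ ⊤ := (hOvol.trans (ENNReal.add_lt_top.2 ⟨hKfin.lt_top,
    ENNReal.ofReal_lt_top⟩)).ne
  have hOreal : volume.real O ≤ volume.real K + η / c := by
    have := ENNReal.toReal_mono (ENNReal.add_ne_top.2 ⟨hKfin, ENNReal.ofReal_ne_top⟩) hOvol.le
    rwa [ENNReal.toReal_add hKfin ENNReal.ofReal_ne_top,
      ENNReal.toReal_ofReal (div_pos hη hc0).le] at this
  obtain ⟨δ₀, hδ₀, hthick⟩ := hK.exists_cthickening_subset_open hO hKO
  set δ : ℝ := min δ₀ (r / 2) / (C + 1) with hδdef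
  have hδ : 0 < δ := by positivity
  have hδ₁ : δ * C + δ ≤ δ₀ := by
    have : δ * (C + 1) = min δ₀ (r / 2) := by rw [hδdef]; field_simp
    nlinarith [min_le_left δ₀ (r / 2)]
  have hδ₂ : δ * C + δ ≤ r / 2 := by
    have : δ * (C + 1) = min δ₀ (r / 2) := by rw [hδdef]; field_simp
    nlinarith [min_le_right δ₀ (r / 2)]
  -- index set
  let Z : Set (ℤ × ℤ) := {kj | ∃ q ∈ K, ‖q - gp e δ kj‖ ≤ δ * C}
  have hZball : ∀ kj ∈ Z, gp e δ kj ∈ Metric.ball p (2 * r) := by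
    rintro kj ⟨q, hq, hqk⟩
    have h1 := mem_closedBall_iff_norm.1 (hKr hq)
    rw [mem_ball_iff_norm]
    calc ‖gp e δ kj - p‖ = ‖(q - p) - (q - gp e δ kj)‖ := by congr 1; abel
      _ ≤ ‖q - p‖ + ‖q - gp e δ kj‖ := norm_sub_le _ _
      _ < 2 * r := by linarith
  have hZfin : Z.Finite := by
    set B : ℝ := ‖p‖ + 2 * r with hB
    set M : ℤ := ⌈B / δ⌉ with hM
    have hMB : B ≤ δ * M := by
      have := Int.le_ceil (B / δ)
      rw [div_le_iff₀ hδ] at this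
      rw [hM]; linarith
    refine Set.Finite.subset ((Set.finite_Icc (-M) M).prod (Set.finite_Icc (-M) M)) ?_
    rintro ⟨k, j⟩ hkj
    have h1 := hZball _ hkj
    rw [mem_ball_iff_norm] at h1
    have h2 : ‖gp e δ (k, j)‖ ≤ B := by
      calc ‖gp e δ (k, j)‖ = ‖(gp e δ (k, j) - p) + p‖ := by congr 1; abel
        _ ≤ ‖gp e δ (k, j) - p‖ + ‖p‖ := norm_add_le _ _
        _ ≤ B := by rw [hB]; linarith
    have h3 := (abs_inner_e_le e 0 (gp e δ (k, j))).trans (h2.trans hMB)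
    have h4 := (abs_inner_e_le e 1 (gp e δ (k, j))).trans (h2.trans hMB)
    rw [inner_e0_gp, abs_mul, abs_of_pos hδ] at h3
    rw [inner_e1_gp, abs_mul, abs_of_pos hδ] at h4
    have h5 : |(k : ℝ)| ≤ M := le_of_mul_le_mul_left h3 hδ
    have h6 : |(j : ℝ)| ≤ M := le_of_mul_le_mul_left h4 hδ
    have h5' : |k| ≤ M := by exact_mod_cast h5
    have h6' : |j| ≤ M := by exact_mod_cast h6
    exact ⟨⟨(abs_le.1 h5').1, (abs_le.1 h5').2⟩, ⟨(abs_le.1 h6').1, (abs_le.1 h6').2⟩⟩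
  have : Fintype Z := hZfin.fintype
  set σ : ℝ := δ * (1 + κ) with hσdef
  have hσ : 0 < σ := by positivity
  -- volume count
  have hcount : (Fintype.card Z : ℝ) * δ ^ 2 ≤ volume.real O := by
    have h1 : ∑ kj : Z, volume (cell e δ kj) ≤ volume O := by
      have hU := measure_iUnion (μ := (volume : Measure E2)) (f := fun kj : Z => cell e δ kj)
        (fun i j hij => disjoint_cell e δ hδ (fun h => hij (Subtype.ext h)))
        (fun i => measurableSet_cell e δ i)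
      rw [tsum_fintype] at hU
      rw [← hU]
      refine measure_mono (iUnion_subset ?_)
      rintro ⟨kj, q, hq, hqk⟩ x hx
      apply hthick
      refine Metric.mem_cthickening_of_dist_le x q δ₀ K hq ?_
      rw [dist_eq_norm]
      calc ‖x - q‖ = ‖(x - gp e δ kj) - (q - gp e δ kj)‖ := by congr 1; abel
        _ ≤ ‖x - gp e δ kj‖ + ‖q - gp e δ kj‖ := norm_sub_le _ _
        _ ≤ δ₀ := by linarith [norm_sub_gp_of_mem_cell e δ kj hx]
    simp only [volume_cell e δ hδ, Finset.sum_const, Finset.card_univ, nsmul_eq_mul] at h1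
    have h2 := ENNReal.toReal_mono hOfin h1
    rw [ENNReal.toReal_mul, ENNReal.toReal_natCast, ENNReal.toReal_ofReal (by positivity)] at h2
    exact h2
  refine Cov.of_fintype (ι := Z) (fun kj => gp e δ kj - (σ / 2) • e 0 - (σ / 2) • e 1)
    (fun _ => σ • e 0) (fun _ => σ • e 1) (fun kj => V (gp e δ kj)) ?_ ?_ ?_
  · intro i
    refine ⟨?_, ?_, ?_⟩
    · intro h0
      have := congrArg norm h0
      rw [norm_smul, e.norm_eq_one, norm_zero] at this
      simp [hσ.ne'] at this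
    · rw [norm_smul, norm_smul, e.norm_eq_one, e.norm_eq_one]
    · rw [inner_smul_left, inner_smul_right, e.inner_eq_zero (show (0 : Fin 2) ≠ 1 by decide)]
      simp
  · intro q hq s hs
    have hqball : q ∈ Metric.ball p r₁ := by
      have h1 := mem_closedBall_iff_norm.1 (hKr hq)
      rw [mem_ball_iff_norm]
      linarith [hr_le.1]
    have herr : ∀ g : E2, ‖q - g‖ ≤ δ * C → L * ‖V q - V g - A (q - g)‖ ≤ δ * κ / 2 := by
      intro g hg
      have hgball : g ∈ Metric.ball p r₁ := by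
        have h1 := mem_closedBall_iff_norm.1 (hKr hq)
        rw [mem_ball_iff_norm]
        calc ‖g - p‖ = ‖(q - p) - (q - g)‖ := by congr 1; abel
          _ ≤ ‖q - p‖ + ‖q - g‖ := norm_sub_le _ _
          _ < r₁ := by linarith [hr_le.1]
      have h1 := hball₁ q hqball _ hgball
      have h2 : ‖V q - V g - A (q - g)‖ ≤ θ * (δ * C) :=
        h1.trans (mul_le_mul_of_nonneg_left hg hθ.le)
      have h3 : L * (θ * (δ * C)) = δ * κ / 2 := by
        rw [hθdef]; field_simp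
      calc L * ‖V q - V g - A (q - g)‖ ≤ L * (θ * (δ * C)) := mul_le_mul_of_nonneg_left h2 hL.le
        _ = _ := h3
    obtain ⟨kj, hnorm, X, Y, hXb, hYb, heq⟩ := local_point V L hL A e α β he0 he1 hαβ0 γ C δ κ hγdef
      hγ hCdef hδ q s hs herr
    rw [← hσdef] at hXb hYb
    refine ⟨⟨kj, ⟨q, hq, hnorm⟩⟩, (X + σ / 2) / σ, ?_, (Y + σ / 2) / σ, ?_, ?_⟩
    · rw [abs_le] at hXb
      constructor
      · apply div_nonneg _ hσ.le; linarith
      · rw [div_le_one hσ]; linarith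
    · rw [abs_le] at hYb
      constructor
      · apply div_nonneg _ hσ.le; linarith
      · rw [div_le_one hσ]; linarith
    · rw [heq]
      have e1 : ((X + σ / 2) / σ) • σ • e 0 = (X + σ / 2) • e 0 := by
        rw [smul_smul]; congr 1; field_simp
      have e2 : ((Y + σ / 2) / σ) • σ • e 1 = (Y + σ / 2) • e 1 := by
        rw [smul_smul]; congr 1; field_simp
      rw [e1, e2]
      module
  · have hterm : ∀ kj : Z, ‖σ • e 0‖ ^ 2 / Real.sqrt (1 + (V (gp e δ kj) 0) ^ 2 +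
        h ^ 2 * (V (gp e δ kj) 1) ^ 2) ≤ δ ^ 2 * c := by
      intro kj
      have h1 : Jf h (V (gp e δ kj)) ≤ c₁ :=
        (hball₂ _ (Metric.ball_subset_ball hr_le.2 (hZball _ kj.2))).le
      have h2 : ‖σ • e 0‖ ^ 2 / Real.sqrt (1 + (V (gp e δ kj) 0) ^ 2 +
        h ^ 2 * (V (gp e δ kj) 1) ^ 2) = σ ^ 2 * Jf h (V (gp e δ kj)) := by
        rw [norm_smul, e.norm_eq_one, mul_one, Real.norm_eq_abs, sq_abs]
        unfold Jf
        ring
      rw [h2, hσdef]
      calc (δ * (1 + κ)) ^ 2 * Jf h (V (gp e δ kj)) ≤ (δ * (1 + κ)) ^ 2 * c₁ := by gcongr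
        _ = δ ^ 2 * ((1 + κ) ^ 2 * c₁) := by ring
        _ ≤ δ ^ 2 * c := by gcongr
    calc _ ≤ ∑ kj : Z, δ ^ 2 * c := Finset.sum_le_sum fun kj _ => hterm kj
      _ = (Fintype.card Z * δ ^ 2) * c := by
        rw [Finset.sum_const, Finset.card_univ, nsmul_eq_mul]; ring
      _ ≤ volume.real O * c := by gcongr
      _ ≤ (volume.real K + η / c) * c := by gcongr
      _ = c * volume.real K + η := by field_simp

end Crest.Agent.R211.Ruled
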