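import Crest.Agent.R211.Area

/-! Covering a triangle by thin parallelograms (owner: helper834). -/

set_option autoImplicit false
open MeasureTheory
open scoped ENNReal

namespace Crest.Agent.R211

/-- The `j`-th of the `n` parallelogram strips covering the triangle `p q r`. -/
theorem triangle_subset_strips (p q r : E3) (n : ℕ) (hn : 0 < n) (x : E3)
    (hx : x ∈ convexHull ℝ {p, q, r}) :
    ∃ j : Fin n, ∃ s ∈ Set.Icc (0 : ℝ) 1, ∃ t ∈ Set.Icc (0 : ℝ) 1,
      x = (p + ((j : ℝ) / n) • (q - p)) + s • ((1 / (n : ℝ)) • (q - p)) +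
        t • ((1 - (j : ℝ) / n) • (r - p)) := by
  rw [convexHull_triple_eq_image] at hx
  obtain ⟨y, ⟨hy0, hy1, hy2⟩, rfl⟩ := hx
  have hnR : (0 : ℝ) < n := by exact_mod_cast hn
  by_cases hs : y 0 < 1
  · have hfl : ⌊y 0 * n⌋₊ < n := by
      rw [Nat.floor_lt (by positivity)]
      nlinarith
    have h1 : ((⌊y 0 * n⌋₊ : ℕ) : ℝ) ≤ y 0 * n := Nat.floor_le (by positivity)
    have h2 : y 0 * n < (⌊y 0 * n⌋₊ : ℕ) + 1 := Nat.lt_floor_add_one _
    set j : ℕ := ⌊y 0 * n⌋₊ with hj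
    have hjn : (j : ℝ) < n := by exact_mod_cast hfl
    have hpos : 0 < 1 - (j : ℝ) / n := by
      rw [sub_pos, div_lt_one hnR]; exact hjn
    have hle : (j : ℝ) / n ≤ y 0 := by rw [div_le_iff₀ hnR]; exact h1
    refine ⟨⟨j, hfl⟩, y 0 * n - j, ⟨by linarith, by linarith⟩, y 1 / (1 - (j : ℝ) / n),
      ⟨by positivity, ?_⟩, ?_⟩
    · rw [div_le_one hpos]; linarith
    · simp only []
      rw [smul_smul, smul_smul, div_mul_cancel₀ _ hpos.ne', add_assoc p, ← add_smul, add_assoc]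
      congr 2
      congr 1
      field_simp
      ring
  · have h0 : y 0 = 1 := by linarith
    have h1 : y 1 = 0 := by linarith
    refine ⟨⟨n - 1, by omega⟩, 1, ⟨by norm_num, le_refl _⟩, 0, ⟨le_refl _, by norm_num⟩, ?_⟩
    simp only [one_smul, zero_smul, add_zero, h0, h1]
    rw [add_assoc, ← add_smul]
    congr 1
    have : (((n - 1 : ℕ) : ℝ)) / n + 1 / n = 1 := by
      rw [← add_div, Nat.cast_sub (by omega), Nat.cast_one, sub_add_cancel, div_self hnR.ne']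
    rw [this, one_smul]

theorem gramArea_smul (a b : E3) (s t : ℝ) (hs : 0 ≤ s) (ht : 0 ≤ t) :
    gramArea (s • a) (t • b) = s * t * gramArea a b := by
  rw [gramArea, gramArea, norm_smul, norm_smul, real_inner_smul_left, real_inner_smul_right,
    Real.norm_of_nonneg hs, Real.norm_of_nonneg ht]
  rw [show (s * ‖a‖) ^ 2 * (t * ‖b‖) ^ 2 - (s * (t * inner ℝ a b)) ^ 2 =
    (s * t) ^ 2 * (‖a‖ ^ 2 * ‖b‖ ^ 2 - inner ℝ a b ^ 2) by ring]
  rw [Real.sqrt_mul (by positivity), Real.sqrt_sq (by positivity)]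

theorem sum_strip (n : ℕ) (hn : 0 < n) :
    ∑ j : Fin n, (1 / (n : ℝ)) * (1 - ((j : ℕ) : ℝ) / n) = (1 + 1 / n) / 2 := by
  have hnR : (n : ℝ) ≠ 0 := by exact_mod_cast hn.ne'
  rw [Fin.sum_univ_eq_sum_range (fun j : ℕ => (1 / (n : ℝ)) * (1 - (j : ℝ) / n)) n,
    ← Finset.mul_sum, Finset.sum_sub_distrib, ← Finset.sum_div]
  have h : ∑ i ∈ Finset.range n, (i : ℝ) = n * (n - 1) / 2 := by
    have := Finset.sum_range_id_mul_two n
    have h2 : ((∑ i ∈ Finset.range n, i : ℕ) : ℝ) * 2 = (n : ℝ) * ((n - 1 : ℕ) : ℝ) := by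
      exact_mod_cast this
    rw [Nat.cast_sub (by omega), Nat.cast_sum] at h2
    push_cast at h2
    linarith
  rw [h]
  simp
  field_simp
  ring

/-- Total area of the strips of one triangle. -/
theorem sum_strip_area (p q r : E3) (n : ℕ) (hn : 0 < n) :
    ∑ j : Fin n, (μHE[2] {x : E3 | ∃ s ∈ Set.Icc (0 : ℝ) 1, ∃ t ∈ Set.Icc (0 : ℝ) 1,
      x = (p + (((j : ℕ) : ℝ) / n) • (q - p)) + s • ((1 / (n : ℝ)) • (q - p)) +
        t • ((1 - ((j : ℕ) : ℝ) / n) • (r - p))}).toReal =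
      (1 + 1 / n) * (μHE[2] (convexHull ℝ ({p, q, r} : Set E3))).toReal := by
  have hnR : (0 : ℝ) < n := by exact_mod_cast hn
  have hterm : ∀ j : Fin n, (μHE[2] {x : E3 | ∃ s ∈ Set.Icc (0 : ℝ) 1, ∃ t ∈ Set.Icc (0 : ℝ) 1,
      x = (p + (((j : ℕ) : ℝ) / n) • (q - p)) + s • ((1 / (n : ℝ)) • (q - p)) +
        t • ((1 - ((j : ℕ) : ℝ) / n) • (r - p))}).toReal =
      ((1 / (n : ℝ)) * (1 - ((j : ℕ) : ℝ) / n)) * gramArea (q - p) (r - p) := by
    intro j
    have hj : ((j : ℕ) : ℝ) / n ≤ 1 := by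
      rw [div_le_one hnR]; exact_mod_cast j.2.le
    rw [muHE_parallelogram, gramArea_smul _ _ _ _ (by positivity) (by linarith),
      ENNReal.toReal_ofReal]
    have := gramArea_nonneg (q - p) (r - p)
    have h3 : 0 ≤ 1 - ((j : ℕ) : ℝ) / n := by linarith
    positivity
  simp only [hterm]
  rw [← Finset.sum_mul, sum_strip n hn, muHE_triangle, ENNReal.toReal_ofReal
    (by have := gramArea_nonneg (q - p) (r - p); positivity)]
  ring

end Crest.Agent.R211
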