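import Crest.Agent.R211.Area

/-! Helper lemmas for S0328 (radial sweeps). -/

set_option autoImplicit false
open MeasureTheory
open scoped ENNReal

namespace Crest.Agent.R211

section Gram
variable {E : Type*} [NormedAddCommGroup E] [InnerProductSpace ℝ E]

theorem gramArea_pos_of_linearIndependent {a b : E} (h : LinearIndependent ℝ ![a, b]) :
    0 < gramArea a b := by
  rw [gramArea, Real.sqrt_pos]
  rcases (gram_nonneg a b).lt_or_eq with h1 | h1
  · exact h1
  · exfalso
    rw [LinearIndependent.pair_iff] at h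
    have hv : ‖(‖b‖ ^ 2) • a - (inner ℝ a b : ℝ) • b‖ ^ 2 = 0 := by
      rw [norm_sub_sq_real, norm_smul, norm_smul, real_inner_smul_left, real_inner_smul_right,
        mul_pow, mul_pow, Real.norm_eq_abs, Real.norm_eq_abs, sq_abs, sq_abs]
      linear_combination (-‖b‖ ^ 2) * h1
    have hv' : (‖b‖ ^ 2) • a - (inner ℝ a b : ℝ) • b = 0 := by
      rw [← norm_eq_zero]; exact pow_eq_zero_iff (two_ne_zero) |>.mp hv
    have h2 := h (‖b‖ ^ 2) (-(inner ℝ a b : ℝ)) (by rw [neg_smul, ← sub_eq_add_neg]; exact hv')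
    have hb : b = 0 := by
      rw [← norm_eq_zero]; exact pow_eq_zero_iff (two_ne_zero) |>.mp h2.1
    have h3 := h 0 1 (by rw [hb]; simp)
    exact one_ne_zero h3.2

theorem eq_zero_of_gramArea_ne_zero {A B : E} (h : gramArea A B ≠ 0) {x y : ℝ}
    (hxy : x • A + y • B = 0) : x = 0 ∧ y = 0 := by
  have hg : ‖A‖ ^ 2 * ‖B‖ ^ 2 - inner ℝ A B ^ 2 ≠ 0 := by
    intro h0; apply h; rw [gramArea, h0, Real.sqrt_zero]
  have h1 : x * ‖A‖ ^ 2 + y * inner ℝ A B = 0 := by
    have := congrArg (fun z => inner ℝ z A) hxy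
    simp only [inner_add_left, real_inner_smul_left, inner_zero_left] at this
    rw [real_inner_self_eq_norm_sq, real_inner_comm] at this
    exact this
  have h2 : x * inner ℝ A B + y * ‖B‖ ^ 2 = 0 := by
    have := congrArg (fun z => inner ℝ z B) hxy
    simp only [inner_add_left, real_inner_smul_left, inner_zero_left] at this
    rw [real_inner_self_eq_norm_sq] at this
    exact this
  constructor
  · have : x * (‖A‖ ^ 2 * ‖B‖ ^ 2 - inner ℝ A B ^ 2) = 0 := by
      linear_combination ‖B‖ ^ 2 * h1 - inner ℝ A B * h2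
    exact (mul_eq_zero.mp this).resolve_right hg
  · have : y * (‖A‖ ^ 2 * ‖B‖ ^ 2 - inner ℝ A B ^ 2) = 0 := by
      linear_combination ‖A‖ ^ 2 * h2 - inner ℝ A B * h1
    exact (mul_eq_zero.mp this).resolve_right hg

theorem affineIndependent_of_gramArea_ne_zero {p q r : E}
    (h : gramArea (q - p) (r - p) ≠ 0) : AffineIndependent ℝ ![p, q, r] := by
  rw [affineIndependent_iff_of_fintype]
  intro w hw hs
  rw [Finset.weightedVSub_eq_linear_combination _ hw] at hs
  simp only [Fin.sum_univ_three, Matrix.cons_val_zero, Matrix.cons_val_one,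
    Matrix.cons_val] at hw hs
  have h1 : w 1 • (q - p) + w 2 • (r - p) = 0 := by
    have h0 : w 0 = -w 1 - w 2 := by linarith
    rw [h0] at hs
    rw [← hs]
    module
  obtain ⟨h2, h3⟩ := eq_zero_of_gramArea_ne_zero h h1
  intro i
  fin_cases i
  · simp; linarith
  · exact h2
  · exact h3

/-- gram area of `D • (a + t • b)`, `D • (a + t' • b)`. -/
theorem gramArea_fan (a b : E) (D t t' : ℝ) (htt : t ≤ t') :
    gramArea (D • (a + t • b)) (D • (a + t' • b)) = D ^ 2 * (t' - t) * gramArea a b := by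
  have h0 : 0 ≤ D ^ 2 * (t' - t) * gramArea a b :=
    mul_nonneg (mul_nonneg (sq_nonneg _) (by linarith)) (gramArea_nonneg _ _)
  rw [← Real.sqrt_sq h0, gramArea]
  congr 1
  rw [mul_pow, mul_pow, gramArea_sq]
  simp only [← real_inner_self_eq_norm_sq, inner_add_left, inner_add_right, real_inner_smul_left,
    real_inner_smul_right, real_inner_comm b a]
  ring

end Gram

/-- Riemann-sum estimate. -/
theorem riemann_estimate {α β : ℝ} (f : ℝ → ℝ) (hf : ContinuousOn f (Set.Icc α β)) (N : ℕ)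
    (t : Fin (N + 1) → ℝ) (ht : StrictMono t) (h0 : t 0 = α) (hN : t (Fin.last N) = β)
    (X : Fin N → ℝ) (ε : ℝ)
    (hX1 : ∀ i, ∀ τ ∈ Set.Icc (t i.castSucc) (t i.succ),
      (t i.succ - t i.castSucc) * (f τ - ε) ≤ X i)
    (hX2 : ∀ i, ∀ τ ∈ Set.Icc (t i.castSucc) (t i.succ),
      X i ≤ (t i.succ - t i.castSucc) * (f τ + ε)) :
    |∑ i, X i - ∫ τ in α..β, f τ| ≤ ε * (β - α) := by
  have hsub : ∀ i : Fin N, Set.Icc (t i.castSucc) (t i.succ) ⊆ Set.Icc α β := by
    intro i
    apply Set.Icc_subset_Icc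
    · rw [← h0]; exact ht.monotone (Fin.zero_le _)
    · rw [← hN]; exact ht.monotone (Fin.le_last _)
  have hle : ∀ i : Fin N, t i.castSucc < t i.succ := fun i => ht (Fin.castSucc_lt_succ)
  -- integrals over the pieces
  have hint : ∀ i : Fin N, IntervalIntegrable f volume (t i.castSucc) (t i.succ) := by
    intro i
    apply ContinuousOn.intervalIntegrable
    rw [Set.uIcc_of_le (hle i).le]
    exact hf.mono (hsub i)
  let a : ℕ → ℝ := fun k => if h : k < N + 1 then t ⟨k, h⟩ else 0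
  have ha : ∀ i : Fin N, a i = t i.castSucc ∧ a (i + 1) = t i.succ := by
    intro i
    constructor
    · simp only [a]
      rw [dif_pos (by omega)]; rfl
    · simp only [a]
      rw [dif_pos (by omega)]; rfl
  have hsum : ∑ i : Fin N, ∫ τ in (t i.castSucc)..(t i.succ), f τ = ∫ τ in α..β, f τ := by
    have h1 : ∑ i : Fin N, ∫ τ in (t i.castSucc)..(t i.succ), f τ =
        ∑ k ∈ Finset.range N, ∫ τ in (a k)..(a (k + 1)), f τ := by
      rw [← Fin.sum_univ_eq_sum_range (fun k => ∫ τ in (a k)..(a (k + 1)), f τ)]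
      apply Finset.sum_congr rfl
      intro i _
      rw [(ha i).1, (ha i).2]
    rw [h1, intervalIntegral.sum_integral_adjacent_intervals]
    · have ha0 : a 0 = α := by
        simp only [a]
        rw [dif_pos (by omega), ← h0]; rfl
      have haN : a N = β := by
        simp only [a]
        rw [dif_pos (by omega), ← hN]; rfl
      rw [ha0, haN]
    · intro k hk
      have := hint ⟨k, hk⟩
      have h2 := ha ⟨k, hk⟩
      simp only at h2
      rw [h2.1, h2.2]
      exact this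
  have hsumlen : ∑ i : Fin N, (t i.succ - t i.castSucc) = β - α := by
    have h1 : ∑ i : Fin N, (t i.succ - t i.castSucc) =
        ∑ k ∈ Finset.range N, (a (k + 1) - a k) := by
      rw [← Fin.sum_univ_eq_sum_range (fun k => a (k + 1) - a k)]
      apply Finset.sum_congr rfl
      intro i _
      rw [(ha i).1, (ha i).2]
    rw [h1, Finset.sum_range_sub]
    simp only [a]
    rw [dif_pos (by omega), dif_pos (by omega), ← h0, ← hN]; rfl
  rw [← hsum, ← Finset.sum_sub_distrib]
  refine (Finset.abs_sum_le_sum_abs _ _).trans ?_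
  rw [← hsumlen, Finset.mul_sum]
  apply Finset.sum_le_sum
  intro i _
  have hli := hle i
  have hpos : 0 < t i.succ - t i.castSucc := by linarith
  set H := t i.succ - t i.castSucc with hH
  -- lower and upper bounds of integral
  have hlow : (X i / H - ε) * H ≤ ∫ τ in (t i.castSucc)..(t i.succ), f τ := by
    have := intervalIntegral.integral_mono_on (μ := volume) (f := fun _ => X i / H - ε) (g := f)
      hli.le (by simp) (hint i) (by
        intro τ hτ
        have h2 := hX2 i τ hτ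
        have : X i / H ≤ f τ + ε := by
          rw [div_le_iff₀ hpos]; linarith
        linarith)
    rw [intervalIntegral.integral_const, smul_eq_mul] at this
    linarith
  have hup : ∫ τ in (t i.castSucc)..(t i.succ), f τ ≤ (X i / H + ε) * H := by
    have := intervalIntegral.integral_mono_on (μ := volume) (g := fun _ => X i / H + ε) (f := f)
      hli.le (hint i) (by simp) (by
        intro τ hτ
        have h2 := hX1 i τ hτ
        have : f τ - ε ≤ X i / H := by
          rw [le_div_iff₀ hpos]; linarith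
        linarith)
    rw [intervalIntegral.integral_const, smul_eq_mul] at this
    linarith
  have hXH : X i / H * H = X i := by field_simp
  rw [abs_le]
  constructor <;> nlinarith [hlow, hup]

/-- decomposition of the increments of `w`. -/
theorem increment_decomp {a b : E3} {α β : ℝ} {w : ℝ → E3} {lam : ℝ → ℝ}
    (hlam : ContinuousOn lam (Set.Icc α β))
    (hw' : ∀ t ∈ Set.Icc α β, HasDerivWithinAt w (lam t • (a + t • b)) (Set.Icc α β) t)
    {M : ℝ} (hM : ∀ t ∈ Set.Icc α β, |lam t| ≤ M) {t₁ t₂ : ℝ} (h1 : α ≤ t₁) (h2 : t₂ ≤ β)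
    {c τ : ℝ} (hc : c ∈ Set.Icc t₁ t₂) (hτ : τ ∈ Set.Icc t₁ t₂) :
    ∃ x y : ℝ, w τ - w c = x • a + y • b ∧ |x| ≤ M * (t₂ - t₁) ∧
      |y - t₁ * x| ≤ M * (t₂ - t₁) ^ 2 ∧ |y - t₂ * x| ≤ M * (t₂ - t₁) ^ 2 := by
  have hsub : Set.Icc t₁ t₂ ⊆ Set.Icc α β := Set.Icc_subset_Icc h1 h2
  have hu : Set.uIcc c τ ⊆ Set.Icc t₁ t₂ := Set.uIcc_subset_Icc hc hτ
  have huΙ : Set.uIoc c τ ⊆ Set.Icc t₁ t₂ := fun z hz => hu (Set.uIoc_subset_uIcc hz)
  have hcont : ContinuousOn lam (Set.uIcc c τ) := hlam.mono (hu.trans hsub)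
  have hM0 : 0 ≤ M := (abs_nonneg _).trans (hM c (hsub hc))
  have hint1 : IntervalIntegrable lam volume c τ := hcont.intervalIntegrable
  have hint2 : IntervalIntegrable (fun t => t * lam t) volume c τ :=
    (continuousOn_id.mul hcont).intervalIntegrable
  have hdist : |τ - c| ≤ t₂ - t₁ := by
    rw [abs_le]; constructor <;> linarith [hc.1, hc.2, hτ.1, hτ.2]
  refine ⟨∫ t in c..τ, lam t, ∫ t in c..τ, t * lam t, ?_, ?_, ?_, ?_⟩
  · have hFTC : ∫ t in c..τ, lam t • (a + t • b) = w τ - w c := by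
      apply intervalIntegral.integral_eq_sub_of_hasDeriv_right
      · intro z hz
        exact (hw' z (hsub (hu hz))).continuousWithinAt.mono (hu.trans hsub)
      · intro z hz
        have hz' : z ∈ Set.Ioo α β := by
          have hz1 := hz.1
          have hz2 := hz.2
          constructor
          · have : α ≤ min c τ := le_min (h1.trans hc.1) (h1.trans hτ.1)
            linarith
          · have : max c τ ≤ β := max_le (hc.2.trans h2) (hτ.2.trans h2)
            linarith
        have hd := (hw' z (Set.Ioo_subset_Icc_self hz')).hasDerivAt (Icc_mem_nhds hz'.1 hz'.2)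
        exact hd.hasDerivWithinAt
      · apply ContinuousOn.intervalIntegrable
        exact hcont.smul (continuousOn_const.add (continuousOn_id.smul continuousOn_const))
    rw [← hFTC]
    have : (fun t => lam t • (a + t • b)) = fun t => lam t • a + (t * lam t) • b := by
      funext t; rw [smul_add, smul_smul, mul_comm (lam t) t]
    rw [this, intervalIntegral.integral_add, intervalIntegral.integral_smul_const,
      intervalIntegral.integral_smul_const]
    · exact (hcont.smul continuousOn_const).intervalIntegrable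
    · exact ((continuousOn_id.mul hcont).smul continuousOn_const).intervalIntegrable
  · have := intervalIntegral.norm_integral_le_of_norm_le_const (f := lam) (a := c) (b := τ)
      (C := M) (fun z hz => hM z (hsub (huΙ hz)))
    rw [Real.norm_eq_abs] at this
    exact this.trans (mul_le_mul_of_nonneg_left hdist hM0)
  · have he : (∫ t in c..τ, t * lam t) - t₁ * ∫ t in c..τ, lam t =
        ∫ t in c..τ, (t - t₁) * lam t := by
      rw [← intervalIntegral.integral_const_mul, ← intervalIntegral.integral_sub hint2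
        (hint1.const_mul _)]
      congr 1; funext t; ring
    rw [he]
    have := intervalIntegral.norm_integral_le_of_norm_le_const (f := fun t => (t - t₁) * lam t)
      (a := c) (b := τ) (C := (t₂ - t₁) * M) (fun z hz => by
        rw [Real.norm_eq_abs, abs_mul]
        have hz' := huΙ hz
        apply mul_le_mul _ (hM z (hsub hz')) (abs_nonneg _) (by linarith [hz'.1, hz'.2])
        rw [abs_of_nonneg (by linarith [hz'.1])]; linarith [hz'.2])
    rw [Real.norm_eq_abs] at this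
    refine this.trans ?_
    have hn : 0 ≤ (t₂ - t₁) * M := mul_nonneg (by linarith [hc.1, hc.2]) hM0
    calc (t₂ - t₁) * M * |τ - c| ≤ (t₂ - t₁) * M * (t₂ - t₁) :=
          mul_le_mul_of_nonneg_left hdist hn
      _ = M * (t₂ - t₁) ^ 2 := by ring
  · have he : (∫ t in c..τ, t * lam t) - t₂ * ∫ t in c..τ, lam t =
        ∫ t in c..τ, (t - t₂) * lam t := by
      rw [← intervalIntegral.integral_const_mul, ← intervalIntegral.integral_sub hint2
        (hint1.const_mul _)]
      congr 1; funext t; ring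
    rw [he]
    have := intervalIntegral.norm_integral_le_of_norm_le_const (f := fun t => (t - t₂) * lam t)
      (a := c) (b := τ) (C := (t₂ - t₁) * M) (fun z hz => by
        rw [Real.norm_eq_abs, abs_mul]
        have hz' := huΙ hz
        apply mul_le_mul _ (hM z (hsub hz')) (abs_nonneg _) (by linarith [hz'.1, hz'.2])
        rw [abs_of_nonpos (by linarith [hz'.2])]; linarith [hz'.1])
    rw [Real.norm_eq_abs] at this
    refine this.trans ?_
    have hn : 0 ≤ (t₂ - t₁) * M := mul_nonneg (by linarith [hc.1, hc.2]) hM0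
    calc (t₂ - t₁) * M * |τ - c| ≤ (t₂ - t₁) * M * (t₂ - t₁) :=
          mul_le_mul_of_nonneg_left hdist hn
      _ = M * (t₂ - t₁) ^ 2 := by ring

/-! ### The base triangles -/

/-- unit vector in direction `d`. -/
noncomputable def unitv (d : E3) : E3 := ‖d‖⁻¹ • d

/-- apex of the bounding triangle -/
noncomputable def apex (a b p₀ : E3) (t₁ t₂ C : ℝ) : E3 :=
  p₀ + (-(2 * C * (t₂ - t₁))) • a + (-(2 * C * (t₂ - t₁) * t₁) - C * (t₂ - t₁) ^ 2) • b

theorem mem_bounding_triangle (a b p₀ : E3) {t₁ t₂ C Rm : ℝ} (ht : t₁ < t₂) (hC : 0 < C)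
    (hR : 0 ≤ Rm) {u v : ℝ} (hu : u ≤ Rm + C * (t₂ - t₁))
    (hv1 : t₁ * u - C * (t₂ - t₁) ^ 2 ≤ v) (hv2 : v ≤ t₂ * u + C * (t₂ - t₁) ^ 2) :
    p₀ + u • a + v • b ∈ convexHull ℝ {apex a b p₀ t₁ t₂ C,
      apex a b p₀ t₁ t₂ C + (Rm + 3 * C * (t₂ - t₁)) • (a + t₁ • b),
      apex a b p₀ t₁ t₂ C + (Rm + 3 * C * (t₂ - t₁)) • (a + t₂ • b)} := by
  have hh : 0 < t₂ - t₁ := by linarith
  set h := t₂ - t₁ with hdef
  have ht2 : t₂ = t₁ + h := by rw [hdef]; ring
  set D := Rm + 3 * C * h with hD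
  have hDpos : 0 < D := by positivity
  rw [convexHull_triple_eq_image]
  refine ⟨!₂[(t₂ * u + C * h ^ 2 - v) / (h * D), (v - t₁ * u + C * h ^ 2) / (h * D)],
    ⟨?_, ?_, ?_⟩, ?_⟩
  · simp only [Matrix.cons_val_zero]
    apply div_nonneg _ (by positivity)
    linarith
  · simp only [Matrix.cons_val_one]
    apply div_nonneg _ (by positivity)
    linarith
  · simp only [Matrix.cons_val_zero, Matrix.cons_val_one]
    rw [← add_div, div_le_one (by positivity), ht2, hD]
    nlinarith [hu, hh]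
  · simp only [Matrix.cons_val_zero, Matrix.cons_val_one, add_sub_cancel_left]
    unfold apex
    rw [← hdef]
    have h1 : ∀ c₁ c₂ : ℝ, c₁ • (D • (a + t₁ • b)) + c₂ • (D • (a + t₂ • b)) =
        ((c₁ + c₂) * D) • a + ((c₁ * t₁ + c₂ * t₂) * D) • b := by
      intro c₁ c₂; module
    rw [h1]
    have e1 : ((t₂ * u + C * h ^ 2 - v) / (h * D) + (v - t₁ * u + C * h ^ 2) / (h * D)) * D =
        u + 2 * C * h := by
      field_simp
      rw [ht2]; ring
    have e2 : ((t₂ * u + C * h ^ 2 - v) / (h * D) * t₁ + (v - t₁ * u + C * h ^ 2) / (h * D) * t₂) * D =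
        v + 2 * C * h * t₁ + C * h ^ 2 := by
      field_simp
      rw [ht2]; ring
    rw [e1, e2]
    module

theorem norm_unitv {e w : E3} (he : ‖e‖ = 1) (hw : inner ℝ w e = 0) : ‖unitv (e + w)‖ = 1 :=
  norm_unit (norm_add_perp_pos he hw)

theorem inner_proj_unitv {e w : E3} (he : ‖e‖ = 1) (hw : inner ℝ w e = 0) (y : E3) :
    inner ℝ (proj (unitv (e + w)) y) (e + w) = 0 := by
  have h := inner_proj (norm_unitv he hw) y
  have hpos := norm_add_perp_pos he hw
  have h2 : e + w = ‖e + w‖ • unitv (e + w) := by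
    unfold unitv
    rw [smul_smul, mul_inv_cancel₀ hpos.ne', one_smul]
  rw [h2, real_inner_smul_right, ← h2, h, mul_zero]

theorem proj_unitv_add_smul {e w : E3} (he : ‖e‖ = 1) (hw : inner ℝ w e = 0) (y : E3) (s : ℝ) :
    proj (unitv (e + w)) (y + s • (e + w)) = proj (unitv (e + w)) y := by
  have hpos := norm_add_perp_pos he hw
  rw [map_add, LinearMap.map_smul]
  have : proj (unitv (e + w)) (e + w) = 0 := by
    rw [proj_apply]
    unfold unitv
    rw [real_inner_smul_right, real_inner_self_eq_norm_sq, smul_smul]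
    have : ‖e + w‖⁻¹ * ‖e + w‖ ^ 2 * ‖e + w‖⁻¹ = 1 := by field_simp
    rw [this, one_smul, sub_self]
  rw [this, smul_zero, add_zero]

theorem eq_proj_unitv_add (d y : E3) : ∃ σ : ℝ, y = proj (unitv d) y + σ • d := by
  refine ⟨inner ℝ y (unitv d) * ‖d‖⁻¹, ?_⟩
  rw [proj_apply, mul_smul]
  change y = y - inner ℝ y (unitv d) • unitv d + inner ℝ y (unitv d) • unitv d
  abel

/-- area of a projected fan triangle -/
theorem muHE_fan_triangle {e a b w : E3} (he : ‖e‖ = 1) (ha : inner ℝ a e = 0)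
    (hb : inner ℝ b e = 0) (hw : inner ℝ w e = 0) (V : E3) {D t₁ t₂ : ℝ} (ht : t₁ ≤ t₂) :
    gramArea (proj (unitv (e + w)) (V + D • (a + t₁ • b)) - proj (unitv (e + w)) V)
      (proj (unitv (e + w)) (V + D • (a + t₂ • b)) - proj (unitv (e + w)) V) =
    D ^ 2 * (t₂ - t₁) * gramArea a b / Real.sqrt (1 + ‖w‖ ^ 2) := by
  rw [← map_sub, ← map_sub, add_sub_cancel_left, add_sub_cancel_left]
  unfold unitv
  rw [gramArea_proj_add he _ _ hw, gramArea_fan a b D t₁ t₂ ht]
  · simp only [inner_add_left, real_inner_smul_left, ha, hb]; ring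
  · simp only [inner_add_left, real_inner_smul_left, ha, hb]; ring

/-- The piece of a sweep. -/
def sweepPiece (e a b p₀ : E3) (w : ℝ → E3) (R : ℝ → ℝ) (L t₁ t₂ : ℝ) : Set E3 :=
  {x : E3 | ∃ τ ∈ Set.Icc t₁ t₂, ∃ ρ ∈ Set.Icc 0 (R τ), ∃ s : ℝ, abs s ≤ L ∧
    x = p₀ + ρ • (a + τ • b) + s • (e + w τ)}

theorem sweepPiece_subset {e a b p₀ : E3} {α β : ℝ} {w : ℝ → E3} {lam : ℝ → ℝ}
    (hlam : ContinuousOn lam (Set.Icc α β))
    (hw' : ∀ t ∈ Set.Icc α β, HasDerivWithinAt w (lam t • (a + t • b)) (Set.Icc α β) t)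
    {M : ℝ} (hM : ∀ t ∈ Set.Icc α β, |lam t| ≤ M) {t₁ t₂ : ℝ} (h1 : α ≤ t₁) (h2 : t₂ ≤ β)
    (ht : t₁ < t₂) {c : ℝ} (hc : c ∈ Set.Icc t₁ t₂) {R : ℝ → ℝ} {Rm L C : ℝ} (hL : 0 < L)
    (hRm : ∀ τ ∈ Set.Icc t₁ t₂, R τ ≤ Rm) (hRm0 : 0 ≤ Rm) (hC : 0 < C) (hCL : L * M ≤ C) :
    ∀ x ∈ sweepPiece e a b p₀ w R L t₁ t₂, ∃ X ∈ convexHull ℝ {apex a b p₀ t₁ t₂ C,
      apex a b p₀ t₁ t₂ C + (Rm + 3 * C * (t₂ - t₁)) • (a + t₁ • b),
      apex a b p₀ t₁ t₂ C + (Rm + 3 * C * (t₂ - t₁)) • (a + t₂ • b)}, ∃ s : ℝ,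
      x = X + s • (e + w c) := by
  rintro x ⟨τ, hτ, ρ, hρ, s, hs, rfl⟩
  obtain ⟨x', y', hxy, hx, hy1, hy2⟩ := increment_decomp hlam hw' hM h1 h2 hc hτ
  have hh : 0 < t₂ - t₁ := by linarith
  set h := t₂ - t₁ with hdef
  refine ⟨p₀ + (ρ + s * x') • a + (ρ * τ + s * y') • b, ?_, s, ?_⟩
  · apply mem_bounding_triangle a b p₀ ht hC hRm0
    · have : s * x' ≤ C * h := by
        calc s * x' ≤ |s * x'| := le_abs_self _
          _ = |s| * |x'| := abs_mul _ _
          _ ≤ L * (M * h) := mul_le_mul hs hx (abs_nonneg _) hL.le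
          _ = L * M * h := by ring
          _ ≤ C * h := mul_le_mul_of_nonneg_right hCL hh.le
      have := hRm τ hτ
      rw [← hdef]
      linarith [hρ.2]
    · have h3 : |s * (y' - t₁ * x')| ≤ C * h ^ 2 := by
        rw [abs_mul]
        calc |s| * |y' - t₁ * x'| ≤ L * (M * h ^ 2) := mul_le_mul hs hy1 (abs_nonneg _) hL.le
          _ = L * M * h ^ 2 := by ring
          _ ≤ C * h ^ 2 := mul_le_mul_of_nonneg_right hCL (by positivity)
      have h4 := neg_le_of_abs_le h3
      have h5 : 0 ≤ ρ * (τ - t₁) := mul_nonneg hρ.1 (by linarith [hτ.1])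
      rw [← hdef]
      nlinarith [h4, h5]
    · have h3 : |s * (y' - t₂ * x')| ≤ C * h ^ 2 := by
        rw [abs_mul]
        calc |s| * |y' - t₂ * x'| ≤ L * (M * h ^ 2) := mul_le_mul hs hy2 (abs_nonneg _) hL.le
          _ = L * M * h ^ 2 := by ring
          _ ≤ C * h ^ 2 := mul_le_mul_of_nonneg_right hCL (by positivity)
      have h4 := le_of_abs_le h3
      have h5 : 0 ≤ ρ * (t₂ - τ) := mul_nonneg hρ.1 (by linarith [hτ.2])
      rw [← hdef]
      nlinarith [h4, h5]
  · have : w τ = w c + (x' • a + y' • b) := by rw [← hxy]; abel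
    rw [this]
    module

theorem fan_subset_sweepPiece {e a b p₀ : E3} {w : ℝ → E3} {t₁ t₂ : ℝ} (ht : t₁ < t₂)
    {R : ℝ → ℝ} {r L : ℝ} (hL : 0 < L) (hr0 : 0 ≤ r) (hr : ∀ τ ∈ Set.Icc t₁ t₂, r ≤ R τ) :
    convexHull ℝ {p₀, p₀ + r • (a + t₁ • b), p₀ + r • (a + t₂ • b)} ⊆
      sweepPiece e a b p₀ w R L t₁ t₂ := by
  rw [convexHull_triple_eq_image]
  rintro _ ⟨z, ⟨h0, h1, h2⟩, rfl⟩
  simp only [add_sub_cancel_left]
  by_cases hs : z 0 + z 1 = 0
  · have hz0 : z 0 = 0 := by linarith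
    have hz1 : z 1 = 0 := by linarith
    refine ⟨t₁, ⟨le_rfl, ht.le⟩, 0, ⟨le_rfl, hr0.trans (hr t₁ ⟨le_rfl, ht.le⟩)⟩, 0, ?_, ?_⟩
    · simpa using hL.le
    · rw [hz0, hz1]; simp
  · have hpos : 0 < z 0 + z 1 := lt_of_le_of_ne (by linarith) (Ne.symm hs)
    have hτ : (z 0 * t₁ + z 1 * t₂) / (z 0 + z 1) ∈ Set.Icc t₁ t₂ := by
      constructor
      · rw [le_div_iff₀ hpos]; nlinarith
      · rw [div_le_iff₀ hpos]; nlinarith
    refine ⟨(z 0 * t₁ + z 1 * t₂) / (z 0 + z 1), hτ, r * (z 0 + z 1), ⟨by positivity, ?_⟩, 0, ?_, ?_⟩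
    · refine le_trans ?_ (hr _ hτ)
      nlinarith
    · simpa using hL.le
    · have h5 : r * (z 0 + z 1) * ((z 0 * t₁ + z 1 * t₂) / (z 0 + z 1)) =
          r * (z 0 * t₁ + z 1 * t₂) := by
        field_simp
      have h6 : (r * (z 0 + z 1)) • (a + ((z 0 * t₁ + z 1 * t₂) / (z 0 + z 1)) • b) =
          (r * (z 0 + z 1)) • a + (r * (z 0 * t₁ + z 1 * t₂)) • b := by
        rw [smul_add, smul_smul, h5]
      rw [zero_smul, add_zero, h6]
      module

end Crest.Agent.R211
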