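import Crest.Agent.R211.Sweep

/-! Analytic part of S0328. -/

set_option autoImplicit false
open MeasureTheory
open scoped ENNReal

namespace Crest.Agent.R211

theorem piece_scalar {κ Rc sq fτ fc D rm ε₁ ε₂ B h : ℝ} (hfc : fc = Rc ^ 2 / (2 * sq))
    (hsq : 1 ≤ sq) (hh : 0 < h) (hRc0 : 0 ≤ Rc) (hRcB : Rc ≤ B) (hε₁ : 0 < ε₁) (hε₁1 : ε₁ ≤ 1)
    (hε₁2 : ε₁ * (4 * B + 4) ≤ ε₂) (hclose : |fc - fτ| < ε₂ / 2)
    (hD1 : Rc ≤ D) (hD2 : D ≤ Rc + 2 * ε₁) (hr1 : rm ≤ Rc) (hr2 : Rc - ε₁ ≤ rm) (hr0 : 0 ≤ rm) :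
    h * (fτ - ε₂) ≤ rm ^ 2 * h / (2 * sq) ∧ D ^ 2 * h / (2 * sq) ≤ h * (fτ + ε₂) := by
  have hgen : ∀ y : ℝ, |y - Rc ^ 2| ≤ ε₂ →
      h * (fτ - ε₂) ≤ y * h / (2 * sq) ∧ y * h / (2 * sq) ≤ h * (fτ + ε₂) := by
    intro y hy
    have h1 := abs_lt.mp hclose
    have h2 : |y / (2 * sq) - fc| ≤ ε₂ / 2 := by
      rw [hfc, ← sub_div, abs_div, abs_of_pos (show 0 < 2 * sq by linarith),
        div_le_iff₀ (by linarith)]
      have h5 : 0 ≤ ε₂ := (abs_nonneg _).trans hy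
      nlinarith
    have h3 := abs_le.mp h2
    have h4 : y * h / (2 * sq) = h * (y / (2 * sq)) := by ring
    rw [h4]
    constructor
    · apply mul_le_mul_of_nonneg_left _ hh.le
      linarith [h1.1, h1.2, h3.1, h3.2]
    · apply mul_le_mul_of_nonneg_left _ hh.le
      linarith [h1.1, h1.2, h3.1, h3.2]
  constructor
  · apply (hgen _ _).1
    rw [abs_sub_comm, abs_of_nonneg (by nlinarith)]
    have h3 : Rc ^ 2 - rm ^ 2 = (Rc - rm) * (Rc + rm) := by ring
    rw [h3]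
    have h4 : (Rc - rm) * (Rc + rm) ≤ ε₁ * (2 * B) := by
      apply mul_le_mul (by linarith) (by linarith) (by linarith) hε₁.le
    nlinarith
  · apply (hgen _ _).2
    rw [abs_of_nonneg (by nlinarith)]
    have h1 : D ^ 2 ≤ (Rc + 2 * ε₁) ^ 2 := pow_le_pow_left₀ (by linarith) hD2 2
    nlinarith

theorem sweep_analytic {κ : ℝ} (hκpos : 0 < κ) {α β : ℝ} (hαβ : α < β) {R : ℝ → ℝ}
    (hR : ContinuousOn R (Set.Icc α β)) (hR0 : ∀ t ∈ Set.Icc α β, 0 ≤ R t)
    {W : ℝ → ℝ} (hW : ContinuousOn W (Set.Icc α β)) (hW0 : ∀ t, 0 ≤ W t)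
    {C : ℝ} (hCpos : 0 < C) {η : ℝ} (hη : 0 < η) :
    ∃ δ : ℝ, 0 < δ ∧ ∀ (N : ℕ) (t : Fin (N + 1) → ℝ) (c : Fin N → ℝ),
      StrictMono t → t 0 = α → t (Fin.last N) = β →
      (∀ i : Fin N, t i.succ - t i.castSucc ≤ δ) →
      (∀ i : Fin N, t i.castSucc ≤ c i ∧ c i ≤ t i.succ) →
      ∃ (Rm rm : Fin N → ℝ), (∀ i, 0 ≤ Rm i) ∧
        (∀ i, ∀ τ ∈ Set.Icc (t i.castSucc) (t i.succ), R τ ≤ Rm i) ∧
        (∀ i, 0 ≤ rm i) ∧ (∀ i, rm i ≤ Rm i) ∧
        (∀ i, ∀ τ ∈ Set.Icc (t i.castSucc) (t i.succ), rm i ≤ R τ) ∧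
        ∀ X : Fin N → ℝ,
          (∀ i, κ * (rm i ^ 2 * (t i.succ - t i.castSucc) / (2 * Real.sqrt (1 + W (c i)))) ≤ X i) →
          (∀ i, X i ≤ κ * ((Rm i + 3 * C * (t i.succ - t i.castSucc)) ^ 2 *
            (t i.succ - t i.castSucc) / (2 * Real.sqrt (1 + W (c i))))) →
          |∑ i, X i - κ * ∫ τ in α..β, R τ ^ 2 / (2 * Real.sqrt (1 + W τ))| ≤ η := by
  set f : ℝ → ℝ := fun τ => R τ ^ 2 / (2 * Real.sqrt (1 + W τ)) with hf
  have hfc : ContinuousOn f (Set.Icc α β) := by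
    apply ContinuousOn.div (hR.pow 2)
    · apply continuousOn_const.mul
      exact (continuousOn_const.add hW).sqrt
    · intro x _
      have := hW0 x
      positivity
  obtain ⟨B, hB⟩ := isCompact_Icc.exists_bound_of_continuousOn hR
  have hα : α ∈ Set.Icc α β := ⟨le_rfl, hαβ.le⟩
  have hB0 : 0 ≤ B := (norm_nonneg _).trans (hB α hα)
  have hB' : ∀ t ∈ Set.Icc α β, R t ≤ B := fun t ht => by
    have := hB t ht; rw [Real.norm_eq_abs] at this; exact (le_abs_self _).trans this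
  have hβα : 0 < β - α := by linarith
  obtain ⟨ε₂, hε₂pos, hε₂⟩ : ∃ ε₂ : ℝ, 0 < ε₂ ∧ κ * (ε₂ * (β - α)) = η :=
    ⟨η / (κ * (β - α)), by positivity, by field_simp⟩
  obtain ⟨ε₁, hε₁pos, hε₁1, hε₁2⟩ : ∃ ε₁ : ℝ, 0 < ε₁ ∧ ε₁ ≤ 1 ∧ ε₁ * (4 * B + 4) ≤ ε₂ := by
    refine ⟨min 1 (ε₂ / (4 * B + 4)), lt_min one_pos (by positivity), min_le_left _ _, ?_⟩
    have : min 1 (ε₂ / (4 * B + 4)) ≤ ε₂ / (4 * B + 4) := min_le_right _ _
    rwa [le_div_iff₀ (by positivity)] at this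
  have hUR := isCompact_Icc.uniformContinuousOn_of_continuous hR
  have hUf := isCompact_Icc.uniformContinuousOn_of_continuous hfc
  rw [Metric.uniformContinuousOn_iff] at hUR hUf
  obtain ⟨δR, hδR, hUR⟩ := hUR ε₁ hε₁pos
  obtain ⟨δf, hδf, hUf⟩ := hUf (ε₂ / 2) (by positivity)
  refine ⟨min (δR / 2) (min (δf / 2) (ε₁ / (3 * C))), by positivity, ?_⟩
  intro N t c ht h0 hN hmesh hc
  have hmeshR : ∀ i : Fin N, t i.succ - t i.castSucc < δR := fun i => by
    have := (hmesh i).trans (min_le_left _ _); linarith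
  have hmeshf : ∀ i : Fin N, t i.succ - t i.castSucc < δf := fun i => by
    have := (hmesh i).trans ((min_le_right _ _).trans (min_le_left _ _)); linarith
  have hmeshC : ∀ i : Fin N, 3 * C * (t i.succ - t i.castSucc) ≤ ε₁ := fun i => by
    have := (hmesh i).trans ((min_le_right _ _).trans (min_le_right _ _))
    rw [le_div_iff₀ (by positivity)] at this
    linarith
  have hlt : ∀ i : Fin N, t i.castSucc < t i.succ := fun i => ht (Fin.castSucc_lt_succ)
  have hsub : ∀ i : Fin N, Set.Icc (t i.castSucc) (t i.succ) ⊆ Set.Icc α β := fun i =>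
    Set.Icc_subset_Icc (by rw [← h0]; exact ht.monotone (Fin.zero_le _))
      (by rw [← hN]; exact ht.monotone (Fin.le_last _))
  have hcm : ∀ i : Fin N, c i ∈ Set.Icc (t i.castSucc) (t i.succ) := fun i => hc i
  have hcm' : ∀ i : Fin N, c i ∈ Set.Icc α β := fun i => hsub i (hcm i)
  have hdist : ∀ i : Fin N, ∀ τ ∈ Set.Icc (t i.castSucc) (t i.succ), ∀ δ' : ℝ,
      t i.succ - t i.castSucc < δ' → dist (c i) τ < δ' := by
    intro i τ hτ δ' hδ'
    rw [Real.dist_eq, abs_lt]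
    constructor <;> linarith [(hcm i).1, (hcm i).2, hτ.1, hτ.2]
  have hRclose : ∀ i : Fin N, ∀ τ ∈ Set.Icc (t i.castSucc) (t i.succ),
      |R (c i) - R τ| < ε₁ := fun i τ hτ => by
    have := hUR (c i) (hcm' i) τ (hsub i hτ) (hdist i τ hτ _ (hmeshR i))
    rwa [Real.dist_eq] at this
  have hfclose : ∀ i : Fin N, ∀ τ ∈ Set.Icc (t i.castSucc) (t i.succ),
      |f (c i) - f τ| < ε₂ / 2 := fun i τ hτ => by
    have := hUf (c i) (hcm' i) τ (hsub i hτ) (hdist i τ hτ _ (hmeshf i))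
    rwa [Real.dist_eq] at this
  have hRc0 : ∀ i, 0 ≤ R (c i) := fun i => hR0 _ (hcm' i)
  refine ⟨fun i => R (c i) + ε₁, fun i => max (R (c i) - ε₁) 0, ?_, ?_, ?_, ?_, ?_, ?_⟩
  · intro i; have := hRc0 i; linarith
  · intro i τ hτ
    have := (abs_lt.mp (hRclose i τ hτ)).1
    linarith
  · intro i; exact le_max_right _ _
  · intro i; have := hRc0 i; exact max_le (by linarith) (by linarith)
  · intro i τ hτ
    have := (abs_lt.mp (hRclose i τ hτ)).2
    exact max_le (by linarith) (hR0 _ (hsub i hτ))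
  · intro X hX1 hX2
    have key : ∀ i, ∀ τ ∈ Set.Icc (t i.castSucc) (t i.succ),
        (t i.succ - t i.castSucc) * (f τ - ε₂) ≤
          (max (R (c i) - ε₁) 0) ^ 2 * (t i.succ - t i.castSucc) /
            (2 * Real.sqrt (1 + W (c i))) ∧
        (R (c i) + ε₁ + 3 * C * (t i.succ - t i.castSucc)) ^ 2 * (t i.succ - t i.castSucc) /
            (2 * Real.sqrt (1 + W (c i))) ≤ (t i.succ - t i.castSucc) * (f τ + ε₂) := by
      intro i τ hτ
      have hpos : 0 < t i.succ - t i.castSucc := by linarith [hlt i]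
      have h1 := hmeshC i
      have h2 : 0 < 3 * C * (t i.succ - t i.castSucc) := by positivity
      apply piece_scalar (fc := f (c i)) (κ := κ) (Rc := R (c i)) (ε₁ := ε₁) (B := B) rfl
      · rw [Real.one_le_sqrt]; linarith [hW0 (c i)]
      · exact hpos
      · exact hRc0 i
      · exact hB' _ (hcm' i)
      · exact hε₁pos
      · exact hε₁1
      · exact hε₁2
      · exact hfclose i τ hτ
      · linarith
      · linarith
      · exact max_le (by linarith) (hRc0 i)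
      · exact le_max_left _ _
      · exact le_max_right _ _
    have hr := riemann_estimate f hfc N t ht h0 hN (fun i => X i / κ) ε₂
      (fun i τ hτ => by
        have h1 := (key i τ hτ).1
        refine h1.trans ?_
        rw [le_div_iff₀ hκpos]
        have h2 := hX1 i
        linarith)
      (fun i τ hτ => by
        have h1 := (key i τ hτ).2
        refine le_trans ?_ h1
        rw [div_le_iff₀ hκpos]
        have h2 := hX2 i
        linarith)
    have h1 : ∑ i, X i - κ * ∫ τ in α..β, f τ = κ * (∑ i, X i / κ - ∫ τ in α..β, f τ) := by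
      rw [mul_sub, Finset.mul_sum]
      congr 1
      apply Finset.sum_congr rfl
      intro i _
      field_simp
    rw [h1, abs_mul, abs_of_pos hκpos, ← hε₂]
    exact mul_le_mul_of_nonneg_left hr hκpos.le

end Crest.Agent.R211
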