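import Crest.Agent.R211.Cover
import Crest.Agent.R211.Proj
import Crest.Agent.R211.OpenBase

/-! Transport of the cover and of the projection bound to a general regular tetrahedron
(owner: helper834). -/

set_option autoImplicit false
set_option linter.unusedSimpArgs false
open MeasureTheory
open scoped ENNReal Pointwise

namespace Crest.Agent.R211

/-- The similarity `x ↦ r (m + A x)` as an affine map. -/
noncomputable def simMap (A : E3 ≃ₗᵢ[ℝ] E3) (m : E3) (r : ℝ) : E3 →ᵃ[ℝ] E3 :=
  AffineMap.mk' (fun x => r • (m + A x)) (r • A.toLinearEquiv.toLinearMap) 0 (by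
    intro p'
    simp only [vsub_eq_sub, sub_zero, LinearMap.smul_apply, map_zero, add_zero, vadd_eq_add]
    rw [smul_add, add_comm]
    rfl)

theorem simMap_apply (A : E3 ≃ₗᵢ[ℝ] E3) (m : E3) (r : ℝ) (x : E3) :
    simMap A m r x = r • (m + A x) := rfl

theorem simMap_image (A : E3 ≃ₗᵢ[ℝ] E3) (m : E3) (r : ℝ) (S : Set E3) :
    (fun x => r • (m + A x)) '' S = simMap A m r '' S := rfl

/-- The linear isometry given by an orthonormal triple. -/
theorem exists_isometry_of_triple (f1 f2 f3 : E3) (h11 : inner ℝ f1 f1 = (1 : ℝ))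
    (h22 : inner ℝ f2 f2 = (1 : ℝ)) (h33 : inner ℝ f3 f3 = (1 : ℝ))
    (h12 : inner ℝ f1 f2 = (0 : ℝ)) (h13 : inner ℝ f1 f3 = (0 : ℝ))
    (h23 : inner ℝ f2 f3 = (0 : ℝ)) :
    ∃ A : E3 ≃ₗᵢ[ℝ] E3, ∀ x : E3, A x = x 0 • f1 + x 1 • f2 + x 2 • f3 := by
  have h21 : inner ℝ f2 f1 = (0 : ℝ) := by rw [real_inner_comm]; exact h12
  have h31 : inner ℝ f3 f1 = (0 : ℝ) := by rw [real_inner_comm]; exact h13
  have h32 : inner ℝ f3 f2 = (0 : ℝ) := by rw [real_inner_comm]; exact h23
  let A0 : E3 →ₗ[ℝ] E3 :=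
    { toFun := fun x => x 0 • f1 + x 1 • f2 + x 2 • f3
      map_add' := by
        intro x y
        simp only [PiLp.add_apply, add_smul]
        abel
      map_smul' := by
        intro c x
        simp only [PiLp.smul_apply, smul_eq_mul, mul_smul, smul_add, RingHom.id_apply] }
  have hA0 : ∀ x, A0 x = x 0 • f1 + x 1 • f2 + x 2 • f3 := fun x => rfl
  have hnorm : ∀ x, ‖A0 x‖ = ‖x‖ := by
    intro x
    have h : ‖A0 x‖ ^ 2 = ‖x‖ ^ 2 := by
      rw [norm_sq_E3 x, ← real_inner_self_eq_norm_sq, hA0]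
      simp only [inner_add_left, inner_add_right, real_inner_smul_left, real_inner_smul_right,
        h11, h22, h33, h12, h13, h23, h21, h31, h32]
      ring
    have h1 := congrArg Real.sqrt h
    rwa [Real.sqrt_sq (norm_nonneg _), Real.sqrt_sq (norm_nonneg _)] at h1
  let A1 : E3 →ₗᵢ[ℝ] E3 := ⟨A0, hnorm⟩
  refine ⟨A1.toLinearIsometryEquiv rfl, fun x => ?_⟩
  rw [LinearIsometry.toLinearIsometryEquiv_apply]
  rfl

/-- The vertices of a regular tetrahedron are a similar image of those of `K0`. -/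
theorem exists_similarity (w : Fin 4 → E3) (ℓ : ℝ) (hℓ : 0 < ℓ)
    (hw : ∀ i j, i ≠ j → dist (w i) (w j) = ℓ) :
    ∃ (A : E3 ≃ₗᵢ[ℝ] E3) (m : E3),
      convexHull ℝ (Set.range w) = (fun x => (ℓ / 2) • (m + A x)) '' K0 := by
  have hs2 : Real.sqrt 2 ^ 2 = 2 := Real.sq_sqrt (by norm_num)
  have hs2' : Real.sqrt 2 * Real.sqrt 2 = 2 := Real.mul_self_sqrt (by norm_num)
  have hs0 : Real.sqrt 2 ≠ 0 := by positivity
  set a : E3 := (2 / ℓ) • w 0 with ha
  set b : E3 := (2 / ℓ) • w 1 with hb
  set c : E3 := (2 / ℓ) • w 2 with hc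
  set d : E3 := (2 / ℓ) • w 3 with hd
  have hD : ∀ i j, i ≠ j → ‖(2 / ℓ) • w i - (2 / ℓ) • w j‖ ^ 2 = 4 := by
    intro i j hij
    rw [← smul_sub, norm_smul, ← dist_eq_norm, hw i j hij, Real.norm_of_nonneg (by positivity)]
    field_simp
    norm_num
  have key : ∀ x y : E3, ‖x - y‖ ^ 2 = 4 → inner ℝ x x - 2 * inner ℝ x y + inner ℝ y y = (4 : ℝ) := by
    intro x y h
    rw [norm_sub_sq_real] at h
    rw [real_inner_self_eq_norm_sq, real_inner_self_eq_norm_sq]
    exact h
  have h01 := key a b (hD 0 1 (by decide))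
  have h02 := key a c (hD 0 2 (by decide))
  have h03 := key a d (hD 0 3 (by decide))
  have h12 := key b c (hD 1 2 (by decide))
  have h13 := key b d (hD 1 3 (by decide))
  have h23 := key c d (hD 2 3 (by decide))
  have cba : inner ℝ b a = inner ℝ a b := real_inner_comm _ _
  have cca : inner ℝ c a = inner ℝ a c := real_inner_comm _ _
  have cda : inner ℝ d a = inner ℝ a d := real_inner_comm _ _
  have ccb : inner ℝ c b = inner ℝ b c := real_inner_comm _ _
  have cdb : inner ℝ d b = inner ℝ b d := real_inner_comm _ _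
  have cdc : inner ℝ d c = inner ℝ c d := real_inner_comm _ _
  obtain ⟨A, hA⟩ := exists_isometry_of_triple ((1 / 2 : ℝ) • (a - b)) ((1 / 2 : ℝ) • (c - d))
    ((1 / (2 * Real.sqrt 2)) • (c + d - a - b))
    (by
      simp only [real_inner_smul_left, real_inner_smul_right, inner_sub_left, inner_sub_right,
        cba]
      linear_combination (1 / 4) * h01)
    (by
      simp only [real_inner_smul_left, real_inner_smul_right, inner_sub_left, inner_sub_right,
        cdc]
      linear_combination (1 / 4) * h23)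
    (by
      simp only [real_inner_smul_left, real_inner_smul_right, inner_sub_left, inner_sub_right,
        inner_add_left, inner_add_right, cba, cca, cda, ccb, cdb, cdc]
      have h8 : 1 / (2 * Real.sqrt 2) * (1 / (2 * Real.sqrt 2)) = 1 / 8 := by
        rw [div_mul_div_comm]
        rw [show 2 * Real.sqrt 2 * (2 * Real.sqrt 2) = 4 * (Real.sqrt 2 * Real.sqrt 2) by ring, hs2']
        norm_num
      linear_combination (inner ℝ c c + inner ℝ c d - inner ℝ a c - inner ℝ b c +
            (inner ℝ c d + inner ℝ d d - inner ℝ a d - inner ℝ b d) -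
          (inner ℝ a c + inner ℝ a d - inner ℝ a a - inner ℝ a b) -
        (inner ℝ b c + inner ℝ b d - inner ℝ a b - inner ℝ b b)) * h8 +
        (1 / 8) * (h02 + h03 + h12 + h13 - h01 - h23))
    (by
      simp only [real_inner_smul_left, real_inner_smul_right, inner_sub_left, inner_sub_right]
      linear_combination (1 / 8) * (-h02 + h03 + h12 - h13))
    (by
      simp only [real_inner_smul_left, real_inner_smul_right, inner_sub_left, inner_sub_right,
        inner_add_left, inner_add_right, cba, cca, cda, ccb, cdb, cdc]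
      linear_combination (1 / 2) * (1 / (2 * Real.sqrt 2)) * (1 / 2) * (-h02 - h03 + h12 + h13))
    (by
      simp only [real_inner_smul_left, real_inner_smul_right, inner_sub_left, inner_sub_right,
        inner_add_left, inner_add_right, cba, cca, cda, ccb, cdb, cdc]
      linear_combination (1 / 2) * (1 / (2 * Real.sqrt 2)) * (1 / 2) * (-h02 - h12 + h03 + h13) * (-1))
  refine ⟨A, (1 / 2 : ℝ) • (a + b), ?_⟩
  set f : E3 →ᵃ[ℝ] E3 := simMap A ((1 / 2 : ℝ) • (a + b)) (ℓ / 2) with hfdef
  have hf : ∀ x, f x = (ℓ / 2) • ((1 / 2 : ℝ) • (a + b) + A x) := fun x => rfl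
  rw [simMap_image, ← hfdef, K0, AffineMap.image_convexHull]
  congr 1
  have hw' : ∀ i, w i = (ℓ / 2) • ((2 / ℓ) • w i) := by
    intro i
    rw [smul_smul]
    have : ℓ / 2 * (2 / ℓ) = 1 := by field_simp
    rw [this, one_smul]
  have e0 : f !₂[1, 0, 0] = w 0 := by
    rw [hf, hA, hw' 0, ← ha]
    congr 1
    simp
    module
  have e1 : f !₂[-1, 0, 0] = w 1 := by
    rw [hf, hA, hw' 1, ← hb]
    congr 1
    simp
    module
  have hr : Real.sqrt 2 * (1 / (2 * Real.sqrt 2)) = 1 / 2 := by field_simp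
  have e2 : f !₂[0, 1, Real.sqrt 2] = w 2 := by
    rw [hf, hA, hw' 2, ← hc]
    congr 1
    simp only [Matrix.cons_val_zero, Matrix.cons_val_one, Matrix.cons_val, smul_smul, hr]
    module
  have e3 : f !₂[0, -1, Real.sqrt 2] = w 3 := by
    rw [hf, hA, hw' 3, ← hd]
    congr 1
    simp only [Matrix.cons_val_zero, Matrix.cons_val_one, Matrix.cons_val, smul_smul, hr]
    module
  rw [Set.image_insert_eq, Set.image_insert_eq, Set.image_pair, e0, e1, e2, e3]
  ext x
  simp only [Set.mem_range, Set.mem_insert_iff, Set.mem_singleton_iff]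
  constructor
  · rintro ⟨i, rfl⟩
    fin_cases i <;> simp
  · rintro (h | h | h | h)
    · exact ⟨0, h.symm⟩
    · exact ⟨1, h.symm⟩
    · exact ⟨2, h.symm⟩
    · exact ⟨3, h.symm⟩

/-- Projections commute with linear isometries. -/
theorem proj_isometry (A : E3 ≃ₗᵢ[ℝ] E3) (u x : E3) : proj (A u) (A x) = A (proj u x) := by
  rw [proj_apply, proj_apply, map_sub, map_smul, A.inner_map_map]

/-- Projected area of a similar image. -/
theorem muHE_proj_similar (A : E3 ≃ₗᵢ[ℝ] E3) (m : E3) (r : ℝ) (hr : 0 < r) (u : E3) (S : Set E3) :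
    μHE[2] ((fun y => y - inner ℝ y (A u) • (A u)) '' ((fun x => r • (m + A x)) '' S)) =
      ENNReal.ofReal (r ^ 2) * μHE[2] ((fun y => y - inner ℝ y u • u) '' S) := by
  rw [proj_image_def, proj_image_def, Set.image_image]
  have h1 : (fun x => proj (A u) (r • (m + A x))) '' S =
      (fun y => r • proj (A u) m + y) '' (r • (A '' (proj u '' S))) := by
    rw [← Set.image_smul, Set.image_image, Set.image_image, Set.image_image]
    apply Set.image_congr
    intro x _
    rw [map_smul, map_add, proj_isometry, smul_add]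
  rw [h1, Isometry.euclideanHausdorffMeasure_image (isometry_add_left _),
    Measure.euclideanHausdorffMeasure_smul₀ 2 hr.ne',
    Isometry.euclideanHausdorffMeasure_image A.isometry]
  rw [ENNReal.smul_def, smul_eq_mul]
  congr 1
  rw [ENNReal.ofReal, Real.toNNReal_pow hr.le]
  congr 2
  ext
  rw [coe_nnnorm, Real.norm_of_nonneg hr.le, Real.coe_toNNReal _ hr.le]

/-- Every projection of a similar image of `K0` has area at least `r² √2`. -/
theorem proj_similar_ge (A : E3 ≃ₗᵢ[ℝ] E3) (m : E3) (r : ℝ) (hr : 0 < r) (v : E3) (hv : ‖v‖ = 1) :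
    r ^ 2 * Real.sqrt 2 ≤
      (μHE[2] ((fun y => y - inner ℝ y v • v) '' ((fun x => r • (m + A x)) '' K0))).toReal := by
  have hv' : A (A.symm v) = v := A.apply_symm_apply v
  have h := muHE_proj_similar A m r hr (A.symm v) K0
  rw [hv'] at h
  rw [h, ENNReal.toReal_mul, ENNReal.toReal_ofReal (by positivity)]
  apply mul_le_mul_of_nonneg_left _ (by positivity)
  apply sqrt2_le_toReal_muHE_proj_K0
  rw [LinearIsometryEquiv.norm_map]; exact hv

theorem gramArea_similar (A : E3 ≃ₗᵢ[ℝ] E3) (r : ℝ) (hr : 0 < r) (a b : E3) :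
    gramArea (r • A a) (r • A b) = r ^ 2 * gramArea a b := by
  rw [gramArea, gramArea, norm_smul, norm_smul, real_inner_smul_left, real_inner_smul_right,
    A.inner_map_map, A.norm_map, A.norm_map, Real.norm_of_nonneg hr.le]
  rw [show (r * ‖a‖) ^ 2 * (r * ‖b‖) ^ 2 - (r * (r * inner ℝ a b)) ^ 2 =
    (r ^ 2) ^ 2 * (‖a‖ ^ 2 * ‖b‖ ^ 2 - inner ℝ a b ^ 2) by ring]
  rw [Real.sqrt_mul (by positivity), Real.sqrt_sq (by positivity)]

/-- The cover of a similar image of `K0`. -/
theorem exists_cover_similar (A : E3 ≃ₗᵢ[ℝ] E3) (m : E3) (r : ℝ) (hr : 0 < r) :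
    ∃ (n : ℕ) (u p q s : Fin n → E3),
      (∀ i, ‖u i‖ = 1) ∧
      (∀ i, inner ℝ (p i) (u i) = 0 ∧ inner ℝ (q i) (u i) = 0 ∧ inner ℝ (s i) (u i) = 0) ∧
      (fun x => r • (m + A x)) '' K0 ⊆
        ⋃ i, {x : E3 | ∃ b ∈ convexHull ℝ {p i, q i, s i}, ∃ t : ℝ, x = b + t • u i} ∧
      ∑ i, (μHE[2] (convexHull ℝ ({p i, q i, s i} : Set E3))).toReal ≤
        r ^ 2 * (Real.sqrt 2 * (1 / 2 - 6 / 10 ^ 10)) := by
  obtain ⟨n, u, p, q, s, -, hu, hperp, hcov, hsum⟩ := exists_cover
  -- new vertices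
  let F : E3 → E3 → E3 := fun u x => proj (A u) (r • (m + A x))
  have hFu : ∀ u x, ‖u‖ = 1 → inner ℝ (F u x) (A u) = 0 := by
    intro u x hu
    exact inner_proj (by rw [A.norm_map]; exact hu) _
  have hFsub : ∀ u x y, F u y - F u x = proj (A u) (r • A (y - x)) := by
    intro u x y
    simp only [F]
    rw [← map_sub, ← smul_sub, map_sub]
    congr 2
    abel
  have hFsub' : ∀ u x y, inner ℝ x u = 0 → inner ℝ y u = 0 → F u y - F u x = r • A (y - x) := by
    intro u x y hx hy
    rw [hFsub, map_smul, proj_isometry, proj_eq_self]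
    rw [inner_sub_left, hx, hy, sub_zero]
  refine ⟨n, fun i => A (u i), fun i => F (u i) (p i), fun i => F (u i) (q i),
    fun i => F (u i) (s i), ?_, ?_, ?_, ?_⟩
  · intro i; simp only []; rw [A.norm_map]; exact hu i
  · intro i
    exact ⟨hFu _ _ (hu i), hFu _ _ (hu i), hFu _ _ (hu i)⟩
  · rintro _ ⟨x, hx, rfl⟩
    obtain ⟨i, hi⟩ := Set.mem_iUnion.mp (hcov hx)
    obtain ⟨b, hb, t, hxt⟩ := hi
    refine Set.mem_iUnion.mpr ⟨i, F (u i) b, ?_, inner ℝ (r • (m + A b)) (A (u i)) + r * t, ?_⟩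
    · have : ({F (u i) (p i), F (u i) (q i), F (u i) (s i)} : Set E3) =
          (proj (A (u i))) '' ((fun x => r • (m + A x)) '' {p i, q i, s i}) := by
        rw [Set.image_insert_eq, Set.image_pair, Set.image_insert_eq, Set.image_pair]
      rw [this, ← LinearMap.image_convexHull]
      refine ⟨r • (m + A b), ?_, rfl⟩
      rw [simMap_image, ← AffineMap.image_convexHull]
      exact ⟨b, hb, rfl⟩
    · simp only [F]
      rw [proj_apply, hxt, map_add, map_smul]
      module
  · have hterm : ∀ i, (μHE[2] (convexHull ℝ ({F (u i) (p i), F (u i) (q i), F (u i) (s i)} :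
        Set E3))).toReal = r ^ 2 * (μHE[2] (convexHull ℝ ({p i, q i, s i} : Set E3))).toReal := by
      intro i
      rw [muHE_triangle, muHE_triangle, hFsub' _ _ _ (hperp i).1 (hperp i).2.1,
        hFsub' _ _ _ (hperp i).1 (hperp i).2.2, gramArea_similar A r hr,
        ENNReal.toReal_ofReal (by have := gramArea_nonneg (q i - p i) (s i - p i); positivity),
        ENNReal.toReal_ofReal (by have := gramArea_nonneg (q i - p i) (s i - p i); positivity)]
      ring
    simp only [hterm]
    rw [← Finset.mul_sum]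
    exact mul_le_mul_of_nonneg_left hsum (by positivity)

end Crest.Agent.R211
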